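import Crest.Agent.X212.Ori83.Main
import Crest.Agent.X212.Ext52.Top
import Crest.Agent.X212.Int54.Defs

/-!
# Row 212, ORI (helper83), part 6: smooth fillings

* `OrM ρ` : `ρ : M → ℝ` is the sign function (in the preferred charts) of an orientation;
* `PosD t σ σ' g` : `g : Fill t σ → Fill t σ'` preserves the orientations inherited from the exterior;
* `posD_of` : a diffeomorphism homotopic to an `IsOrientedHomeomorph` is `PosD`;
* `PosD.form`, `PosD.ori` : the same in terms of nowhere vanishing top forms.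
-/

set_option autoImplicit false
set_option linter.unusedSectionVars false
open Set Filter Topology Metric CategoryTheory
open scoped Manifold ContDiff

noncomputable section

namespace Crest.Agent.X212.Ori83

open Crest.Agent.N255.Tp Crest.GeometryTopology.DehnSurgery Crest.Agent.X212.Ext52
open Crest.Agent.X212.Dr59 Crest.Agent.X212.Int54 Crest.Agent.R208.F

section gen

variable {E : Type*} [NormedAddCommGroup E] [NormedSpace ℝ E] [FiniteDimensional ℝ E]
  {H : Type*} [TopologicalSpace H] (I : ModelWithCorners ℝ E H)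
  {M : Type*} [TopologicalSpace M] [ChartedSpace H M]

/-- `ρ` is the sign function, in the preferred charts, of an orientation -/
def OrM (ρ : M → ℝ) : Prop :=
  ∀ x, ∀ᶠ z in 𝓝 (extChartAt I x x),
    0 < (mf 𝓘(ℝ, E) I (extChartAt I x).symm z).det * ρ ((extChartAt I x).symm z) * ρ x

variable {I}

/-- a continuous nowhere vanishing top form gives an orientation -/
theorem orM_of_form [I.Boundaryless] [IsManifold I ∞ M] {o : M → Ext E} (ho : ∀ x, CAt I 0 o x)
    (h0 : ∀ x, tp E (o x) ≠ 0) : OrM I fun x => tp E (o x) := fun x => by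
  have h1 : ContinuousAt (fun z => tp E (rp I x o z) * tp E (o x)) (extChartAt I x x) :=
    ((tp E).continuous.continuousAt.comp (ContDiffAt.continuousAt (ho x))).mul continuousAt_const
  refine (h1.eventually (lt_mem_nhds (a := 0) ?_)).mono fun z hz => ?_
  · show 0 < tp E (rp I x o _) * _
    rw [rp_self]
    exact mul_self_pos.2 (h0 x)
  · rwa [rp, pm_apply, tp_pb_self] at hz

theorem OrM.ne {ρ : M → ℝ} (h : OrM I ρ) (x : M) : ρ x ≠ 0 :=
  right_ne_zero_of_mul (h x).self_of_nhds.ne'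

end gen

section self

variable {d : ℕ} {M M' : Type} [TopologicalSpace M] [TopologicalSpace M']
  [ChartedSpace (EE (d + 1)) M] [ChartedSpace (EE (d + 1)) M']

theorem hasFDerivAt_rd {g : M → M'} {x : M} (h : MDifferentiableAt (𝓡 (d + 1)) (𝓡 (d + 1)) g x) :
    HasFDerivAt (rd d g x) (mf (𝓡 (d + 1)) (𝓡 (d + 1)) g x) (chartAt (EE (d + 1)) x x) := by
  have := h.hasMFDerivAt.2
  rw [modelWithCornersSelf_coe, range_id, hasFDerivWithinAt_univ] at this
  exact this

theorem OrM.orF [IsManifold (𝓡 (d + 1)) ∞ M] {ρ : M → ℝ} (h : OrM (𝓡 (d + 1)) ρ) : OrF d ρ := by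
  refine ⟨h.ne, fun x => ?_⟩
  filter_upwards [(continuousAt_extChartAt (I := 𝓡 (d + 1)) x).eventually (h x),
    (isOpen_extChartAt_source (I := 𝓡 (d + 1)) x).mem_nhds (mem_extChartAt_source x)] with y h1 h2
  have e := (extChartAt (𝓡 (d + 1)) x).left_inv h2
  rw [e] at h1
  refine ⟨_, ?_, h1⟩
  have := ((contMDiffAt_chart_symm ((extChartAt (𝓡 (d + 1)) x).map_source h2)).mdifferentiableAt
    (by simp)).hasMFDerivAt.2
  rw [modelWithCornersSelf_coe, range_id, hasFDerivWithinAt_univ, writtenInExtChartAt, e] at this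
  exact this

theorem det_ne_of_ld {g : M → M'} {x : M}
    (h : IsLocalDiffeomorphAt (𝓡 (d + 1)) (𝓡 (d + 1)) ∞ g x) :
    (mf (𝓡 (d + 1)) (𝓡 (d + 1)) g x).det ≠ 0 := by
  have := jac_ne_zero (E := EE (d + 1)) (F := EE (d + 1)) (h.mfderivToContinuousLinearEquiv (by simp))
  rwa [jac_self] at this

end self

section pinch

variable (T : ThickKnot)

/-- the crushing map -/
abbrev cr : S3 → TubePinch T := Quot.mk (TubeRel T)

theorem cr_eq {u x : S3} (hu : u ∉ T.tube) (h : cr T x = cr T u) : x = u := by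
  have := congrArg (Quot.lift (r := TubeRel T) (fun x => x = u) fun a b hab =>
    propext ⟨fun e => absurd (e ▸ hab.1) hu, fun e => absurd (e ▸ hab.2) hu⟩) h
  exact this.mpr rfl

theorem preimage_cr {s : Set S3} (hs : s ⊆ T.tubeᶜ) : cr T ⁻¹' (cr T '' s) = s := by
  refine Subset.antisymm ?_ (subset_preimage_image _ _)
  rintro x ⟨u, hu, e⟩
  rwa [cr_eq T (hs hu) e.symm]

theorem isClosed_tube : IsClosed T.tube :=
  ((isCompact_univ.prod (isCompact_closedBall _ _)).image T.isOpenEmbedding.continuous).isClosed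

theorem compl_tube_subset : T.tubeᶜ ⊆ T.exterior :=
  compl_subset_compl.2 (image_mono (prod_mono_right ball_subset_closedBall))

variable (t : Tube) (σ : FillingData)

/-- the collapse map of the smooth filling -/
def pin : C(Fill t σ, TubePinch t.thick) :=
  (pinchMap t.thick σ).comp ((t.homeo σ).symm : C(_, _))

theorem pin_ie {x : t.Ext} (hx : x.1 ∈ t.thick.exterior) : pin t σ (t.ie σ x) = cr t.thick x := by
  have := t.homeo_symm_ie σ ⟨x, hx⟩
  show pinchMap t.thick σ ((t.homeo σ).symm (t.ie σ (t.ofExterior ⟨x, hx⟩))) = _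
  rw [this]
  rfl

theorem pin_inj {u : t.Ext} (hu : u.1 ∉ t.thick.tube) (x : Fill t σ)
    (h : pin t σ x = pin t σ (t.ie σ u)) : x = t.ie σ u := by
  rw [pin_ie t σ (compl_tube_subset _ hu)] at h
  obtain ⟨⟨e | d⟩, rfl⟩ := (t.homeo σ).surjective x
  · rw [t.homeo_inl] at h ⊢
    rw [pin_ie t σ (x := t.ofExterior e) e.2] at h
    exact congrArg _ (Subtype.ext (cr_eq _ hu h))
  · have h2 : pin t σ (t.homeo σ (Quot.mk _ (.inr d))) = cr t.thick (t.τ (1, 0)) := by
      show pinchMap t.thick σ ((t.homeo σ).symm (t.homeo σ _)) = _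
      rw [Homeomorph.symm_apply_apply]
      rfl
    have h3 := cr_eq _ hu (h2.symm.trans h)
    exact absurd ⟨(1, 0), ⟨mem_univ _, by simp⟩, h3⟩ hu

end pinch

/-- `g` preserves the orientations which the two fillings inherit from the common exterior -/
def PosD (t : Tube) (σ σ' : FillingData) (g : Fill t σ → Fill t σ') : Prop :=
  ∀ (ρ : Fill t σ → ℝ) (ρ' : Fill t σ' → ℝ), OrM (𝓡 3) ρ → OrM (𝓡 3) ρ' →
    (∀ u : t.Ext, 0 < (mf (𝓡 3) (𝓡 3) (t.ie σ) u).det * (mf (𝓡 3) (𝓡 3) (t.ie σ') u).det *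
      ρ (t.ie σ u) * ρ' (t.ie σ' u)) →
    ∀ y, 0 < (mf (𝓡 3) (𝓡 3) g y).det * ρ y * ρ' (g y)

variable {t : Tube} {σ σ' : FillingData}

theorem posD_of_H3 (g : C(Fill t σ, Fill t σ')) (hi : Function.Injective g)
    (hd : IsLocalDiffeomorph (𝓡 3) (𝓡 3) ∞ g)
    (h : intH3Map (pin t σ) = intH3Map ((pin t σ').comp g)) : PosD t σ σ' g := by
  intro ρ ρ' hρ hρ' hp y
  let u : t.Ext := ⟨t.τ (1, 2), t.τ_mem_Ext.2 two_ne_zero⟩
  have hu : u.1 ∉ t.thick.tube := by
    rintro ⟨z, hz, e⟩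
    have h1 := mem_closedBall_zero_iff.1 hz.2
    rw [t.inj e] at h1
    norm_num at h1
  have hO : IsOpen (Subtype.val ⁻¹' t.thick.tubeᶜ : Set t.Ext) :=
    (isClosed_tube _).isOpen_compl.preimage continuous_subtype_val
  have hj := (t.two σ').isOpenEmbedding_inl
  have hq : IsQuotientMap (cr t.thick) := isQuotientMap_quot_mk
  refine ori_abs (d := 2) hρ.orF hρ'.orF (pin t σ) (pin t σ') g hi (fun χ => exact_of_intH3 h)
    ⟨t.ie σ, (t.two σ).isOpenEmbedding_inl.continuous⟩ ⟨t.ie σ', hj.continuous⟩ u ?_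
    (pin_inj t σ hu) (pin_inj t σ' hu) ?_ ⟨_, (hj.isOpenMap _ hO).mem_nhds ⟨u, hu, rfl⟩, ?_, ?_⟩
    (hasFDerivAt_rd (((t.two σ).ld_inl u).mdifferentiableAt (by simp)))
    (hasFDerivAt_rd (((t.two σ').ld_inl u).mdifferentiableAt (by simp))) (hp u) y
    (hasFDerivAt_rd ((hd y).mdifferentiableAt (by simp))) (det_ne_of_ld (hd y))
  · filter_upwards [hO.mem_nhds hu] with x hx
    exact (pin_ie t σ (compl_tube_subset _ hx)).trans (pin_ie t σ' (compl_tube_subset _ hx)).symm
  · show IsClosed {pin t σ' (t.ie σ' u)}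
    rw [pin_ie t σ' (compl_tube_subset _ hu), ← hq.isClosed_preimage, ← image_singleton,
      preimage_cr _ (singleton_subset_iff.2 hu)]
    exact isClosed_singleton
  · rintro x - _ ⟨v, hv, rfl⟩ e
    exact pin_inj t σ' hv x e
  · intro V hV hVo
    have e : pin t σ' '' V = cr t.thick '' (Subtype.val '' (t.ie σ' ⁻¹' V)) := by
      ext p
      constructor
      · rintro ⟨x, hx, rfl⟩
        obtain ⟨v, hv, rfl⟩ := hV hx
        exact ⟨v, ⟨v, hx, rfl⟩, (pin_ie t σ' (compl_tube_subset _ hv)).symm⟩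
      · rintro ⟨_, ⟨v, hv, rfl⟩, rfl⟩
        obtain ⟨w, hw, e⟩ := hV hv
        obtain rfl := hj.injective e
        exact ⟨_, hv, pin_ie t σ' (compl_tube_subset _ hw)⟩
    rw [e, ← hq.isOpen_preimage, preimage_cr]
    · exact t.Ext.2.isOpenMap_subtype_val _ (hVo.preimage hj.continuous)
    · rintro _ ⟨v, hv, rfl⟩
      obtain ⟨w, hw, e⟩ := hV hv
      obtain rfl := hj.injective e
      exact hw

/-- the homeomorphism of the statement, read on the smooth fillings -/
def onFill (f : SlopeFilling t.thick σ ≃ₜ SlopeFilling t.thick σ') : Fill t σ ≃ₜ Fill t σ' :=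
  ((t.homeo σ).symm.trans f).trans (t.homeo σ')

/-- ORI: a diffeomorphism homotopic to an oriented homeomorphism is positive -/
theorem posD_of (f : SlopeFilling t.thick σ ≃ₜ SlopeFilling t.thick σ')
    (hf : IsOrientedHomeomorph t.thick σ σ' f) (g : Fill t σ ≃ₘ^∞⟮𝓡 3, 𝓡 3⟯ Fill t σ')
    (hg : (g.toHomeomorph : C(Fill t σ, Fill t σ')).Homotopic (onFill f : C(_, _))) :
    PosD t σ σ' g := by
  refine posD_of_H3 (g.toHomeomorph : C(Fill t σ, Fill t σ')) g.injective g.isLocalDiffeomorph ?_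
  rw [intH3Map_comp, intH3Map_homotopic hg, ← intH3Map_comp, pin, intH3Map_comp, hf,
    ← intH3Map_comp, ← intH3Map_comp]
  congr 1
  ext x
  show _ = pinchMap t.thick σ' ((t.homeo σ').symm (t.homeo σ' (f ((t.homeo σ).symm x))))
  rw [Homeomorph.symm_apply_apply]
  rfl

/-- `PosD` in terms of top forms -/
theorem PosD.form {g : Fill t σ → Fill t σ'} (h : PosD t σ σ' g) {o : Fill t σ → Ext E3}
    {o' : Fill t σ' → Ext E3} (ho : ∀ x, CAt (𝓡 3) 0 o x) (h0 : ∀ x, tp E3 (o x) ≠ 0)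
    (ho' : ∀ x, CAt (𝓡 3) 0 o' x) (h0' : ∀ x, tp E3 (o' x) ≠ 0)
    (hp : ∀ u, 0 < tp E3 (pm (𝓡 3) (𝓡 3) (t.ie σ) o u) * tp E3 (pm (𝓡 3) (𝓡 3) (t.ie σ') o' u))
    (y : Fill t σ) : 0 < tp E3 (pm (𝓡 3) (𝓡 3) g o' y) * tp E3 (o y) := by
  have := h _ _ (orM_of_form ho h0) (orM_of_form ho' h0') (fun u => by
    have := hp u
    rw [pm_apply, pm_apply, tp_pb_self, tp_pb_self] at this
    linarith) y
  rw [pm_apply, tp_pb_self]
  linarith

/-- `PosD` in terms of orientation forms -/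
theorem PosD.ori {g : Fill t σ → Fill t σ'} (h : PosD t σ σ' g) {o : Fill t σ → Ext E3}
    {o' : Fill t σ' → Ext E3} (ho : Ori (𝓡 3) o) (ho' : Ori (𝓡 3) o')
    (hp : SameOn (pm (𝓡 3) (𝓡 3) (t.ie σ) o) (pm (𝓡 3) (𝓡 3) (t.ie σ') o') univ) :
    SameOn (pm (𝓡 3) (𝓡 3) g o') o univ := fun y _ =>
  h.form (fun x => (ho.sm x).of_le (by simp)) ho.ne (fun x => (ho'.sm x).of_le (by simp)) ho'.ne
    (fun u => hp u (mem_univ u)) y

end Crest.Agent.X212.Ori83

end
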