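import Crest.Agent.N255.Tp.All

/-!
# Row 212, ORI (helper83), part 1: the local generator, its non-triviality and its sign under a reflection
-/

set_option autoImplicit false
open Set Filter Topology

noncomputable section

namespace Crest.Agent.X212.Ori83

open Crest.Agent.N255.Tp Crest.Agent.R251.Pr

variable {X Y Z : Type} [TopologicalSpace X] [TopologicalSpace Y] [TopologicalSpace Z] {n : ℕ}

theorem exa_homot (H : C(X × unitInterval, Y)) {K : Set X} {L : Set Y}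
    (h : ∀ x ∈ Kᶜ, ∀ t, H (x, t) ∈ Lᶜ) : ∀ {n} {φ : Co ℚ n Y}, cob ℚ φ = 0 →
      φ ∈ (On Lᶜ).van ℚ ℚ n → pull ℚ (end1 H) φ - pull ℚ (end0 H) φ ∈ Exa ℚ ℚ K n
  | 0, φ, hc, _ => by
    rw [← pc_cob_zero ℚ H φ, hc, map_zero]; exact Submodule.zero_mem _
  | n + 1, φ, hc, hv => ⟨pc ℚ H φ, pc_van ℚ H h hv, by
    have e := cob_pc ℚ H φ
    rw [hc, map_zero, add_zero] at e
    exact e⟩

theorem exa_mono {K L : Set X} (h : K ⊆ L) : ∀ {n}, Exa ℚ ℚ K n ≤ Exa ℚ ℚ L n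
  | 0 => le_rfl
  | _ + 1 => Submodule.map_mono (van_supp h)

theorem exa_pull (f : C(X, Y)) {K : Set X} {L : Set Y} (h : MapsTo f Kᶜ Lᶜ) :
    ∀ {n} {φ : Co ℚ n Y}, φ ∈ Exa ℚ ℚ L n → pull ℚ f φ ∈ Exa ℚ ℚ K n
  | 0, φ, hφ => by
    rw [(Submodule.mem_bot ℚ).1 hφ, map_zero]; exact Submodule.zero_mem _
  | _ + 1, _, ⟨b, hb, rfl⟩ => ⟨pull ℚ f b, pull_mem h hb, rfl⟩

theorem pull_pull (f : C(X, Y)) (g : C(Y, Z)) (φ : Co ℚ n Z) :
    pull ℚ f (pull ℚ g φ) = pull ℚ (g.comp f) φ := rfl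

theorem pull_cl (f : C(X, Y)) {φ : Co ℚ n Y} (h : cob ℚ φ = 0) : cob ℚ (pull ℚ f φ) = 0 := by
  rw [cob_pull, h, map_zero]

/-- injectivity of the connecting map -/
theorem nt_inter {K L : Set X} (aK : AcS ℚ ℚ K) (aL : AcS ℚ ℚ L) {g p : Co ℚ n X}
    (hg : cob ℚ g = 0) (hp : p ∈ (On Kᶜ).van ℚ ℚ n) (hm : p - g ∈ (On Lᶜ).van ℚ ℚ n)
    (h : cob ℚ p ∈ Exa ℚ ℚ (K ∩ L) (n + 1)) : g ∈ Exa ℚ ℚ (K ∪ L) n := by
  obtain ⟨ψ, hψ, e⟩ := h
  have h1 := aK n (p - ψ) (by rw [map_sub, e, sub_self])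
    (Submodule.sub_mem _ hp (van_supp inter_subset_left hψ))
  have h2 := aL n (p - g - ψ) (by rw [map_sub, map_sub, e, hg, sub_zero, sub_self])
    (Submodule.sub_mem _ hm (van_supp inter_subset_right hψ))
  rw [show g = (p - ψ) - (p - g - ψ) by abel]
  exact Submodule.sub_mem _ (exa_mono subset_union_left h1) (exa_mono subset_union_right h2)

/-- a map which swaps the two halves changes the sign of the connecting map -/
theorem rf_inter {K L : Set X} (hK : IsClosed K) (hL : IsClosed L) (ρ : C(X, X))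
    (h1 : MapsTo ρ Kᶜ Lᶜ) (h2 : MapsTo ρ Lᶜ Kᶜ) {g p : Co ℚ n X}
    (hg : cob ℚ g = 0) (hp : p ∈ (On Kᶜ).van ℚ ℚ n) (hm : p - g ∈ (On Lᶜ).van ℚ ℚ n)
    (hc : cob ℚ p ∈ (On (K ∩ L)ᶜ).van ℚ ℚ (n + 1))
    (h : pull ℚ ρ g - g ∈ Exa ℚ ℚ (K ∪ L) n) :
    pull ℚ ρ (cob ℚ p) + cob ℚ p ∈ Exa ℚ ℚ (K ∩ L) (n + 1) := by
  obtain ⟨q, hq, hq', hq0⟩ := Exa.split h
  have e : cob ℚ (p + pull ℚ ρ (p - g) + q) = pull ℚ ρ (cob ℚ p) + cob ℚ p := by
    rw [map_add, map_add, hq0, add_zero, cob_pull, map_sub (cob ℚ), hg, sub_zero]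
    exact add_comm _ _
  have h3 : MapsTo ρ (K ∩ L)ᶜ (K ∩ L)ᶜ := fun x hx hx' => by
    by_cases a : x ∈ K
    · exact h2 (fun b => hx ⟨a, b⟩) hx'.1
    · exact h1 a hx'.2
  obtain ⟨b, hb, hb'⟩ := van_union smVanS_holds hK.isOpen_compl hL.isOpen_compl
    (a := p + pull ℚ ρ (p - g) + q)
    (Submodule.add_mem _ (Submodule.add_mem _ hp (pull_mem h1 hm)) hq)
    (by
      rw [show p + pull ℚ ρ (p - g) + q = (p - g) + pull ℚ ρ p + (q - (pull ℚ ρ g - g)) by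
        rw [map_sub]; abel]
      exact Submodule.add_mem _ (Submodule.add_mem _ hm (pull_mem h2 hp)) hq')
    (by
      rw [e, ← compl_inter]
      exact Submodule.add_mem _ (pull_mem h3 hc) hc)
  exact ⟨b, by rwa [compl_inter], hb'.trans e⟩

variable {N : ℕ}

theorem continuous_single (l : Fin N) :
    Continuous fun a : ℝ => (EuclideanSpace.single l a : EE N) :=
  (continuous_id.smul (continuous_const (y := (EuclideanSpace.single l 1 : EE N)))).congr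
    fun a => by ext m; by_cases hm : m = l <;> simp [hm]

/-- homotopy from the identity to a reflection -/
def rfH (l : Fin N) : C(EE N × unitInterval, EE N) :=
  ⟨fun p => p.1 + EuclideanSpace.single l (-(2 * (p.2 : ℝ) * p.1 l)),
    continuous_fst.add ((continuous_single l).comp (by fun_prop))⟩

/-- reflection in a coordinate hyperplane -/
def rf (l : Fin N) : C(EE N, EE N) := end1 (rfH l)

theorem rf_apply (l : Fin N) (x : EE N) : rf l x = x + EuclideanSpace.single l (-(2 * x l)) := by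
  simp [rf, rfH]

theorem end0_rfH (l : Fin N) : end0 (rfH l) = ContinuousMap.id _ := by
  ext x; simp [rfH]

theorem rf_KH (l : Fin N) (s R : ℝ) : MapsTo (rf l) (KH 0 l s R)ᶜ (KH 0 l (-s) R)ᶜ := by
  intro x hx h
  apply hx
  simp only [KH, mem_ofPred_eq, rf_apply, qq_single, PiLp.add_apply, PiLp.single_apply, if_true,
    PiLp.zero_apply, sub_zero] at h ⊢
  rwa [show -s * (x l + -(2 * x l)) = s * x l by ring] at h

theorem gen_KK : ∀ j ≤ N, ∃ g : ∀ n, Co ℚ n (EE N),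
    (∀ n, n ≠ j → g n = 0) ∧ (∀ n, cob ℚ (g n) = 0 ∧ g n ∈ (On (KK 0 j 0)ᶜ).van ℚ ℚ n) ∧
      (∀ R, GenBy ℚ (KK 0 j R) g) ∧ (∀ R, g j ∉ Exa ℚ ℚ (KK (0 : EE N) j R) j) ∧
      ∀ l : Fin N, (l : ℕ) + 1 = j → pull ℚ (rf l) (g j) + g j ∈ Exa ℚ ℚ (KK 0 j 0) j := by
  intro j
  induction j with
  | zero =>
    intro _
    refine ⟨fun n => Nat.casesOn n (fun _ => (1 : ℚ)) fun _ => 0, ?_, ?_, fun R => ?_, ?_, ?_⟩
    · rintro (_ | n) h
      · exact absurd rfl h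
      · rfl
    · rintro (_ | n)
      · refine ⟨?_, fun σ hσ => absurd (hσ ⟨stdSimplex.vertex 0, rfl⟩) (by simp [KK_zero])⟩
        exact (cob_const (1 : ℚ)).trans (by funext σ; simp)
      · exact ⟨map_zero _, Submodule.zero_mem _⟩
    · rw [KK_zero]
      exact genBy_univ (linH 0) 0 (fun x => by simp [linH_apply]) fun x => by simp [linH_apply]
    · intro R h
      exact one_ne_zero (congrFun ((Submodule.mem_bot ℚ).1 h) (cst 0 0))
    · intro l h
      omega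
  | succ j ih =>
    intro hj
    obtain ⟨g, g0, g1, g2, g3, -⟩ := ih (by omega)
    let l : Fin N := ⟨j, hj⟩
    choose p hp hm hc h0 using fun n => exists_conn smVanS_holds (isClosed_KH 0 l 1 0)
      (isClosed_KH 0 l (-1) 0) (g n) (g1 n).1 (by rw [KH_union]; exact (g1 n).2)
    refine ⟨fun n => Nat.casesOn n 0 fun n => cob ℚ (p n), ?_, ?_, fun R => ?_, fun R h => ?_, ?_⟩
    · rintro (_ | n) h
      · rfl
      · change cob ℚ (p n) = 0
        rw [h0 n (g0 n (by omega)), map_zero]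
    · rintro (_ | n)
      · exact ⟨map_zero _, Submodule.zero_mem _⟩
      · refine ⟨cob_cob _, ?_⟩
        have := hc n
        rwa [KH_inter] at this
    · have := GenBy.inter smVanS_holds (isClosed_KH 0 l 1 R) (isClosed_KH 0 l (-1) R)
        (acS_KH 0 l (by norm_num) R) (acS_KH 0 l (by norm_num) R) (g := g) (p := p)
        (by rw [KH_union]; exact g2 R) (fun n => van_supp (KH_mono 0 l 1 R) (hp n))
        (fun n => van_supp (KH_mono 0 l (-1) R) (hm n))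
        fun n => van_supp (inter_subset_inter (KH_mono 0 l 1 R) (KH_mono 0 l (-1) R)) (hc n)
      rwa [KH_inter] at this
    · refine g3 R ?_
      have := nt_inter (acS_KH 0 l (s := 1) (by norm_num) R) (acS_KH 0 l (s := -1) (by norm_num) R)
        (g1 j).1 (van_supp (KH_mono 0 l 1 R) (hp j)) (van_supp (KH_mono 0 l (-1) R) (hm j))
        (by rw [KH_inter]; exact h)
      rwa [KH_union] at this
    · intro l' hl'
      obtain rfl : l' = l := Fin.ext (by simpa using hl')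
      have h1 := rf_KH l 1 0
      have h2 := rf_KH l (-1) 0
      rw [neg_neg] at h2
      have := rf_inter (isClosed_KH 0 l 1 0) (isClosed_KH 0 l (-1) 0) (rf l) h1 h2 (g1 j).1
        (hp j) (hm j) (hc j) (by
          rw [KH_union]
          have h3 := exa_homot (rfH l) (K := KK 0 l 0) (L := KK 0 l 0) (fun x hx t h => hx (by
            simpa only [KK, rfH, ContinuousMap.coe_mk, mem_ofPred_eq, qq_single] using h))
            (g1 j).1 (g1 j).2
          rwa [end0_rfH] at h3)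
      rwa [KH_inter] at this

theorem exists_gen (d : ℕ) : ∃ g : Co ℚ (d + 1) (EE (d + 1)), cob ℚ g = 0 ∧
    g ∈ (On ({0} : Set (EE (d + 1)))ᶜ).van ℚ ℚ (d + 1) ∧
    (∀ R, 0 ≤ R → ∀ φ : Co ℚ (d + 1) (EE (d + 1)), cob ℚ φ = 0 →
      φ ∈ (On (Metric.closedBall 0 R)ᶜ).van ℚ ℚ (d + 1) →
      ∃ t : ℚ, φ - t • g ∈ Exa ℚ ℚ (Metric.closedBall 0 R) (d + 1)) ∧
    (∀ R, 0 ≤ R → g ∉ Exa ℚ ℚ (Metric.closedBall (0 : EE (d + 1)) R) (d + 1)) ∧
    pull ℚ (rf (Fin.last d)) g + g ∈ Exa ℚ ℚ {0} (d + 1) := by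
  obtain ⟨g, -, g1, g2, g3, g4⟩ := gen_KK (N := d + 1) (d + 1) le_rfl
  have e : KK (0 : EE (d + 1)) (d + 1) 0 = {0} := by rw [KK_top 0 le_rfl]; simp
  refine ⟨g (d + 1), (g1 _).1, e ▸ (g1 _).2, fun R hR φ a b => ?_, fun R hR => ?_,
    e ▸ g4 (Fin.last d) (by simp)⟩
  · have := g2 R
    rw [KK_top 0 hR] at this
    exact this _ φ a b
  · have := g3 R
    rwa [KK_top 0 hR] at this

/-- the generator of the local cohomology of Euclidean space at the origin -/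
def g0 (d : ℕ) : Co ℚ (d + 1) (EE (d + 1)) := (exists_gen d).choose

variable {d : ℕ}

theorem g0_cl : cob ℚ (g0 d) = 0 := (exists_gen d).choose_spec.1

theorem g0_van : g0 d ∈ (On ({0} : Set (EE (d + 1)))ᶜ).van ℚ ℚ (d + 1) :=
  (exists_gen d).choose_spec.2.1

theorem g0_gen {R : ℝ} (hR : 0 ≤ R) {φ : Co ℚ (d + 1) (EE (d + 1))} (hc : cob ℚ φ = 0)
    (hv : φ ∈ (On (Metric.closedBall 0 R)ᶜ).van ℚ ℚ (d + 1)) :
    ∃ t : ℚ, φ - t • g0 d ∈ Exa ℚ ℚ (Metric.closedBall 0 R) (d + 1) :=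
  (exists_gen d).choose_spec.2.2.1 R hR φ hc hv

theorem g0_nt {R : ℝ} (hR : 0 ≤ R) {t : ℚ}
    (h : t • g0 d ∈ Exa ℚ ℚ (Metric.closedBall (0 : EE (d + 1)) R) (d + 1)) : t = 0 := by
  by_contra ht
  refine (exists_gen d).choose_spec.2.2.2.1 R hR ?_
  have := Submodule.smul_mem _ t⁻¹ h
  rwa [smul_smul, inv_mul_cancel₀ ht, one_smul] at this

theorem g0_rf : pull ℚ (rf (Fin.last d)) (g0 d) + g0 d ∈ Exa ℚ ℚ {0} (d + 1) :=
  (exists_gen d).choose_spec.2.2.2.2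

end Crest.Agent.X212.Ori83

end
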