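import Crest.Agent.X212.Ori83.Gen

/-!
# Row 212, ORI (helper83), part 2: local degree; the degree of a differentiable germ is the sign of its
Jacobian determinant
-/

set_option autoImplicit false
open Set Filter Topology

noncomputable section

namespace Crest.Agent.X212.Ori83

open Crest.Agent.N255.Tp Crest.Agent.R251.Pr

variable {X Y : Type} [TopologicalSpace X] [TopologicalSpace Y] {d : ℕ}

/-- the value of a local class on a map of pairs -/
def Dg (j : C(EE (d + 1), X)) (φ : Co ℚ (d + 1) X) (t : ℚ) : Prop :=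
  pull ℚ j φ - t • g0 d ∈ Exa ℚ ℚ {0} (d + 1)

/-- closed cochains supported at one point -/
def At (x : X) (φ : Co ℚ (d + 1) X) : Prop :=
  cob ℚ φ = 0 ∧ φ ∈ (On ({x} : Set X)ᶜ).van ℚ ℚ (d + 1)

/-- maps which vanish at most at the origin -/
def PM (h : C(EE (d + 1), EE (d + 1))) : Prop := MapsTo h {0}ᶜ {0}ᶜ

/-- degree of a self map of the pair -/
def Deg (h : C(EE (d + 1), EE (d + 1))) (t : ℚ) : Prop := Dg h (g0 d) t

variable {j : C(EE (d + 1), X)} {φ ψ : Co ℚ (d + 1) X} {s t : ℚ} {x : X}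
  {h h' : C(EE (d + 1), EE (d + 1))}

theorem at_g0 : At (0 : EE (d + 1)) (g0 d) := ⟨g0_cl, g0_van⟩

theorem At.smul (a : At x φ) (r : ℚ) : At x (r • φ) :=
  ⟨by rw [map_smul, a.1, smul_zero], Submodule.smul_mem _ r a.2⟩

theorem At.sub (a : At x φ) (b : At x ψ) : At x (φ - ψ) :=
  ⟨by rw [map_sub, a.1, b.1, sub_zero], Submodule.sub_mem _ a.2 b.2⟩

theorem At.pull {y : Y} (f : C(Y, X)) (hf : MapsTo f {y}ᶜ {x}ᶜ) (a : At x φ) :
    At y (pull ℚ f φ) := ⟨pull_cl f a.1, pull_mem hf a.2⟩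

theorem Dg.unique (a : Dg j φ s) (b : Dg j φ t) : s = t := by
  have h1 := Submodule.sub_mem _ b a
  rw [sub_sub_sub_cancel_left, ← sub_smul, ← Metric.closedBall_zero] at h1
  exact sub_eq_zero.1 (g0_nt le_rfl h1)

theorem exists_dg (hj : MapsTo j {0}ᶜ {x}ᶜ) (a : At x φ) : ∃ t, Dg j φ t := by
  have b := a.pull j hj
  have := g0_gen (d := d) le_rfl b.1 (by rw [Metric.closedBall_zero]; exact b.2)
  rwa [Metric.closedBall_zero] at this

theorem Dg.smul (a : Dg j φ s) (r : ℚ) : Dg j (r • φ) (r * s) := by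
  have := Submodule.smul_mem _ r a
  rwa [smul_sub, smul_smul, ← map_smul] at this

theorem Dg.sub (a : Dg j φ s) (b : Dg j ψ t) : Dg j (φ - ψ) (s - t) := by
  have := Submodule.sub_mem _ a b
  unfold Dg
  rw [map_sub, sub_smul]
  convert this using 1
  abel

theorem Dg.comp (a : Dg j φ s) (hh : PM h) (b : Deg h t) : Dg (j.comp h) φ (s * t) := by
  have h1 := exa_pull h hh a
  have h2 := Submodule.add_mem _ h1 (Submodule.smul_mem _ s b)
  unfold Dg
  convert h2 using 1
  rw [map_sub, map_smul, smul_sub, smul_smul, pull_pull]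
  abel

theorem Dg.of_exa (hj : MapsTo j {0}ᶜ {x}ᶜ) (a : φ ∈ Exa ℚ ℚ {x} (d + 1)) : Dg j φ 0 := by
  unfold Dg
  rw [zero_smul, sub_zero]
  exact exa_pull j hj a

theorem Dg.exa [T1Space X] (hj : IsOpenEmbedding j) (a : At (j 0) φ) (b : Dg j φ 0) :
    φ ∈ Exa ℚ ℚ {j 0} (d + 1) := by
  unfold Dg at b
  rw [zero_smul, sub_zero] at b
  have := exa_of_pull smVanS_holds hj (K := {0}) (by rw [image_singleton]; exact isClosed_singleton)
    a.1 (by rw [image_singleton]; exact a.2) b
  rwa [image_singleton] at this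

theorem exists_at (hj : IsOpenEmbedding j) (hc : IsClosed ({j 0} : Set X)) :
    ∃ φ, At (j 0) φ ∧ Dg j φ 1 := by
  obtain ⟨φ, h1, h2, h3⟩ := exists_extend smVanS_holds hj (K := {0}) (by rwa [image_singleton])
    (g0_cl (d := d)) g0_van
  refine ⟨φ, ⟨h2, by rwa [image_singleton] at h1⟩, ?_⟩
  unfold Dg
  rw [h3, one_smul, sub_self]
  exact Submodule.zero_mem _

theorem dg_pull (f : C(X, Y)) {χ : Co ℚ (d + 1) Y} : Dg j (pull ℚ f χ) t ↔ Dg (f.comp j) χ t :=
  Iff.rfl

theorem PM.comp (a : PM h) (b : PM h') : PM (h.comp h') := fun _ hx => a (b hx)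

theorem PM.exists (a : PM h) : ∃ t, Deg h t := exists_dg a at_g0

theorem deg_id : Deg (ContinuousMap.id (EE (d + 1))) 1 := by
  change g0 d - (1 : ℚ) • g0 d ∈ _
  rw [one_smul, sub_self]
  exact Submodule.zero_mem _

theorem deg_homot (H : C(EE (d + 1) × unitInterval, EE (d + 1)))
    (hH : ∀ x, x ≠ 0 → ∀ t, H (x, t) ≠ 0) (h0 : ∀ x, H (x, 0) = h x) (h1 : ∀ x, H (x, 1) = h' x)
    (a : Deg h t) : Deg h' t := by
  have := exa_homot H (K := {0}) (L := {0}) hH (g0_cl (d := d)) g0_van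
  rw [show end0 H = h from ContinuousMap.ext h0, show end1 H = h' from ContinuousMap.ext h1] at this
  have h2 := Submodule.add_mem _ this a
  rwa [sub_add_sub_cancel] at h2

/-- straight line homotopy -/
theorem deg_line (hH : ∀ x, x ≠ 0 → ∀ t : ℝ, 0 ≤ t → t ≤ 1 → h x + t • (h' x - h x) ≠ 0)
    (a : Deg h t) : Deg h' t :=
  deg_homot ⟨fun p => h p.1 + (p.2 : ℝ) • (h' p.1 - h p.1), by fun_prop⟩
    (fun x hx t => hH x hx t t.2.1 t.2.2) (fun x => by simp) (fun x => by simp) a

/-- positive rescalings have degree one -/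
theorem deg_scale (c : EE (d + 1) → ℝ) (hc : ∀ x, 0 < c x) (e : ∀ x, h x = c x • x) :
    PM h ∧ Deg h 1 := by
  refine ⟨fun x hx => ?_, deg_line (fun x hx t h0 h1 => ?_) deg_id⟩
  · rw [e]; exact smul_ne_zero (hc x).ne' hx
  · have : (ContinuousMap.id _) x + t • (h x - (ContinuousMap.id _) x) = (1 - t + t * c x) • x := by
      rw [e, ContinuousMap.id_apply]; module
    rw [this]
    refine smul_ne_zero (ne_of_gt ?_) hx
    rcases h0.eq_or_lt with rfl | h2
    · simp
    · have := mul_pos h2 (hc x)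
      linarith

/-- sign -/
def sg (r : ℝ) : ℚ := if 0 < r then 1 else -1

theorem sg_pos {r : ℝ} (h : 0 < r) : sg r = 1 := if_pos h

theorem sg_neg {r : ℝ} (h : r < 0) : sg r = -1 := if_neg h.not_gt

theorem sg_mul {a b : ℝ} (ha : a ≠ 0) (hb : b ≠ 0) : sg (a * b) = sg a * sg b := by
  rcases ha.lt_or_gt with h1 | h1 <;> rcases hb.lt_or_gt with h2 | h2
  · rw [sg_pos (mul_pos_of_neg_of_neg h1 h2), sg_neg h1, sg_neg h2]; norm_num
  · rw [sg_neg (mul_neg_of_neg_of_pos h1 h2), sg_neg h1, sg_pos h2]; norm_num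
  · rw [sg_neg (mul_neg_of_pos_of_neg h1 h2), sg_pos h1, sg_neg h2]; norm_num
  · rw [sg_pos (mul_pos h1 h2), sg_pos h1, sg_pos h2]; norm_num

/-- the map given by a matrix -/
def mx (M : Matrix (Fin (d + 1)) (Fin (d + 1)) ℝ) : C(EE (d + 1), EE (d + 1)) :=
  ⟨fun x => WithLp.toLp 2 (M.mulVec x.ofLp), by fun_prop⟩

theorem mx_apply (M : Matrix (Fin (d + 1)) (Fin (d + 1)) ℝ) (x : EE (d + 1)) (i : Fin (d + 1)) :
    mx M x i = M.mulVec x.ofLp i := rfl

theorem mx_mul (A B : Matrix (Fin (d + 1)) (Fin (d + 1)) ℝ) : mx (A * B) = (mx A).comp (mx B) := by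
  ext x i
  simp [mx]

theorem mx_ne {M : Matrix (Fin (d + 1)) (Fin (d + 1)) ℝ} (hM : M.det ≠ 0) {x : EE (d + 1)}
    (hx : x ≠ 0) : mx M x ≠ 0 := fun e => hx (by
  have h1 : M.mulVec x.ofLp = 0 := congrArg WithLp.ofLp e
  have h2 := Matrix.eq_zero_of_mulVec_eq_zero hM h1
  ext i
  exact congrFun h2 i)

theorem pm_mx {M : Matrix (Fin (d + 1)) (Fin (d + 1)) ℝ} (hM : M.det ≠ 0) : PM (mx M) :=
  fun _ hx => mx_ne hM hx

theorem deg_seg {A B : Matrix (Fin (d + 1)) (Fin (d + 1)) ℝ}
    (hd : ∀ t : ℝ, 0 ≤ t → t ≤ 1 → (A + t • (B - A)).det ≠ 0) (a : Deg (mx A) t) : Deg (mx B) t :=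
  deg_line (fun x hx t h0 h1 => by
    have := mx_ne (hd t h0 h1) hx
    convert this using 1
    ext i
    simp [mx_apply, Matrix.add_mulVec, Matrix.smul_mulVec, Matrix.sub_mulVec]) a

theorem mx_one : mx (1 : Matrix (Fin (d + 1)) (Fin (d + 1)) ℝ) = ContinuousMap.id _ := by
  ext x i
  simp [mx]

/-- permutation of the coordinates -/
def pc' (σ : Equiv.Perm (Fin (d + 1))) : C(EE (d + 1), EE (d + 1)) :=
  ⟨fun x => WithLp.toLp 2 fun i => x (σ i), by fun_prop⟩

theorem pm_pc' (σ : Equiv.Perm (Fin (d + 1))) : PM (pc' σ) := fun x hx e => hx (by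
  ext i
  have := congrArg (fun y : EE (d + 1) => y (σ.symm i)) (mem_singleton_iff.1 e)
  simpa [pc'] using this)

theorem pm_rf (l : Fin (d + 1)) : PM (rf l) := fun x hx e => hx (by
  ext i
  have := congrArg (fun y : EE (d + 1) => y i) (mem_singleton_iff.1 e)
  rw [rf_apply] at this
  by_cases hi : i = l
  · subst hi
    simp only [PiLp.add_apply, PiLp.single_apply, if_true, PiLp.zero_apply] at this ⊢
    linarith
  · simpa [hi] using this)

theorem deg_rf (l : Fin (d + 1)) : Deg (rf l) (-1) := by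
  have h0 : Deg (rf (Fin.last d)) (-1) := by
    change _ - (-1 : ℚ) • g0 d ∈ _
    rw [neg_smul, one_smul, sub_neg_eq_add]
    exact g0_rf
  set σ := Equiv.swap l (Fin.last d)
  obtain ⟨q, hq⟩ := (pm_pc' σ).exists
  have e1 : (pc' σ).comp (pc' σ) = ContinuousMap.id _ := by
    ext x i
    simp [pc', σ]
  have e2 : ((pc' σ).comp (rf (Fin.last d))).comp (pc' σ) = rf l := by
    ext x i
    by_cases hi : i = l
    · simp [pc', σ, rf_apply, hi]
    · have : σ i ≠ Fin.last d := fun e => hi (by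
        rw [← Equiv.swap_apply_left l (Fin.last d)] at e
        exact σ.injective e)
      simp [pc', rf_apply, hi, this, σ]
  have h1 := Dg.comp hq (pm_pc' σ) hq
  rw [e1] at h1
  have h2 := Dg.comp (Dg.comp hq (pm_rf _) h0) (pm_pc' σ) hq
  rw [e2, show q * -1 * q = -(q * q) by ring, h1.unique deg_id] at h2
  exact h2

theorem deg_single (l : Fin (d + 1)) {a : ℝ} (ha : a ≠ 0) :
    Deg (mx (Matrix.diagonal (Function.update 1 l a))) (sg a) := by
  have hd : ∀ b : ℝ, (Matrix.diagonal (Function.update (1 : Fin (d + 1) → ℝ) l b)).det = b := by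
    intro b
    rw [Matrix.det_diagonal, Finset.prod_update_of_mem (Finset.mem_univ l)]
    simp
  have key : ∀ b t : ℝ, Matrix.diagonal (Function.update (1 : Fin (d + 1) → ℝ) l b) +
      t • (Matrix.diagonal (Function.update (1 : Fin (d + 1) → ℝ) l a) -
        Matrix.diagonal (Function.update (1 : Fin (d + 1) → ℝ) l b)) =
      Matrix.diagonal (Function.update (1 : Fin (d + 1) → ℝ) l (b + t * (a - b))) := by
    intro b t
    ext i k
    by_cases h1 : i = k
    · subst h1
      by_cases h2 : i = l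
      · subst h2; simp
      · simp [h2]
    · simp [h1]
  rcases ha.lt_or_gt with h | h
  · rw [sg_neg h]
    refine deg_seg (A := Matrix.diagonal (Function.update 1 l (-1))) (fun t h0 h1 => ?_) ?_
    · rw [key, hd]
      rcases h0.eq_or_lt with rfl | h2
      · norm_num
      · have := mul_neg_of_pos_of_neg h2 h
        exact ne_of_lt (by linarith)
    · convert deg_rf l using 1
      ext x i
      by_cases hi : i = l
      · subst hi
        simp [mx_apply, rf_apply, Matrix.mulVec_diagonal]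
        ring
      · simp [mx_apply, rf_apply, Matrix.mulVec_diagonal, hi]
  · rw [sg_pos h]
    refine deg_seg (A := Matrix.diagonal (Function.update 1 l 1)) (fun t h0 h1 => ?_) ?_
    · rw [key, hd]
      rcases h0.eq_or_lt with rfl | h2
      · norm_num
      · have := mul_pos h2 h
        exact ne_of_gt (by linarith)
    · rw [show Function.update (1 : Fin (d + 1) → ℝ) l 1 = 1 from Function.update_eq_self l _]
      change Deg (mx (1 : Matrix (Fin (d + 1)) (Fin (d + 1)) ℝ)) 1
      rw [mx_one]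
      exact deg_id

theorem deg_mul {A B : Matrix (Fin (d + 1)) (Fin (d + 1)) ℝ} (hA : A.det ≠ 0) (hB : B.det ≠ 0)
    (a : Deg (mx A) (sg A.det)) (b : Deg (mx B) (sg B.det)) : Deg (mx (A * B)) (sg (A * B).det) := by
  rw [mx_mul, Matrix.det_mul, sg_mul hA hB]
  exact Dg.comp a (pm_mx hB) b

theorem deg_mx {M : Matrix (Fin (d + 1)) (Fin (d + 1)) ℝ} (hM : M.det ≠ 0) :
    Deg (mx M) (sg M.det) := by
  refine Matrix.diagonal_transvection_induction_of_det_ne_zero
    (fun M => Deg (mx M) (sg M.det)) M hM (fun D hD => ?_) (fun τ => ?_)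
    fun A B hA hB a b => deg_mul hA hB a b
  · have hD' : ∀ i, D i ≠ 0 := by
      rw [Matrix.det_diagonal, Finset.prod_ne_zero_iff] at hD
      exact fun i => hD i (Finset.mem_univ i)
    have hn : ∀ s : Finset (Fin (d + 1)),
        (Matrix.diagonal fun i => if i ∈ s then D i else 1).det ≠ 0 := fun s => by
      rw [Matrix.det_diagonal, Finset.prod_ne_zero_iff]
      intro i _
      split_ifs
      exacts [hD' i, one_ne_zero]
    have : ∀ s : Finset (Fin (d + 1)), Deg (mx (Matrix.diagonal fun i => if i ∈ s then D i else 1))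
        (sg (Matrix.diagonal fun i => if i ∈ s then D i else 1).det) := by
      intro s
      induction s using Finset.induction_on with
      | empty =>
        simp only [Finset.notMem_empty, if_false, Matrix.diagonal_one, Matrix.det_one, mx_one]
        rw [sg_pos one_pos]
        exact deg_id
      | insert l s hl ih =>
        have hd : (Matrix.diagonal (Function.update (1 : Fin (d + 1) → ℝ) l (D l))).det = D l := by
          rw [Matrix.det_diagonal, Finset.prod_update_of_mem (Finset.mem_univ l)]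
          simp
        have := deg_mul (hd ▸ hD' l) (hn s) (hd.symm ▸ deg_single l (hD' l)) ih
        rw [Matrix.diagonal_mul_diagonal] at this
        have e : (fun i => Function.update (1 : Fin (d + 1) → ℝ) l (D l) i *
            if i ∈ s then D i else 1) = fun i => if i ∈ insert l s then D i else 1 := by
          funext i
          by_cases hi : i = l
          · subst hi; simp [hl]
          · simp [hi]
        rwa [e] at this
    simpa using this Finset.univ
  · obtain ⟨i, k, hik, c⟩ := τ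
    change Deg (mx (Matrix.transvection i k c)) (sg (Matrix.transvection i k c).det)
    rw [Matrix.det_transvection_of_ne i k hik, sg_pos one_pos]
    refine deg_seg (A := 1) (fun t _ _ => ?_) (mx_one ▸ deg_id)
    have : (1 : Matrix (Fin (d + 1)) (Fin (d + 1)) ℝ) + t • (Matrix.transvection i k c - 1) =
        Matrix.transvection i k (t * c) := by
      simp [Matrix.transvection]
    rw [this, Matrix.det_transvection_of_ne i k hik]
    exact one_ne_zero

theorem deg_clm (D : EE (d + 1) →L[ℝ] EE (d + 1)) (hD : D.det ≠ 0) :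
    PM ⟨D, D.continuous⟩ ∧ Deg ⟨D, D.continuous⟩ (sg D.det) := by
  set b := (EuclideanSpace.basisFun (Fin (d + 1)) ℝ).toBasis
  have e1 : (LinearMap.toMatrix b b (D : EE (d + 1) →ₗ[ℝ] EE (d + 1))).det = D.det :=
    LinearMap.det_toMatrix b _
  have e2 : mx (LinearMap.toMatrix b b (D : EE (d + 1) →ₗ[ℝ] EE (d + 1))) = ⟨D, D.continuous⟩ := by
    ext x i
    have := congrFun (LinearMap.toMatrix_mulVec_repr b b (D : EE (d + 1) →ₗ[ℝ] EE (d + 1)) x) i
    have e : ⇑(b.repr x) = x.ofLp := by funext k; simp [b]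
    rw [e] at this
    rw [mx_apply, this]
    simp [b]
  rw [← e2, ← e1]
  exact ⟨pm_mx (e1 ▸ hD), deg_mx (e1 ▸ hD)⟩

/-- **local degree = sign of the Jacobian** -/
theorem deg_loc {f : EE (d + 1) → EE (d + 1)} {D : EE (d + 1) →L[ℝ] EE (d + 1)} {c : EE (d + 1)}
    (hf : HasFDerivAt f D c) (hD : D.det ≠ 0) : ∃ δ > 0, ∀ s : C(EE (d + 1), EE (d + 1)), PM s →
      (∀ y, ‖s y‖ < δ) → ∀ F : C(EE (d + 1), EE (d + 1)), (∀ y, F y = f (c + s y) - f c) →
        PM F ∧ ∀ t, Deg s t → Deg F (sg D.det * t) := by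
  obtain ⟨a, b⟩ := deg_clm D hD
  have hinj : Function.Injective D := fun x y e => by
    by_contra hne
    exact a (sub_ne_zero.2 hne) (by simp [e])
  obtain ⟨K, hK0, hK⟩ := (D : EE (d + 1) →ₗ[ℝ] EE (d + 1)).exists_antilipschitzWith
    (LinearMap.ker_eq_bot.2 hinj)
  have hK' : ∀ z, ‖z‖ ≤ K * ‖D z‖ := fun z => by
    simpa using hK.le_mul_dist z 0
  have hKp : (0 : ℝ) < K := by exact_mod_cast hK0
  have h1 := (hasFDerivAt_iff_isLittleO_nhds_zero.1 hf).def (c := (2 * K)⁻¹) (by positivity)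
  obtain ⟨δ, hδ, h2⟩ := Metric.eventually_nhds_iff.1 h1
  refine ⟨δ, hδ, fun s hs hn F hF => ?_⟩
  have key : ∀ y, y ≠ 0 → ∀ t : ℝ, 0 ≤ t → t ≤ 1 → D (s y) + t • (F y - D (s y)) ≠ 0 := by
    intro y hy t h0 ht e
    have h3 := h2 (y := s y) (by simpa using hn y)
    rw [← hF] at h3
    have h4 : ‖D (s y)‖ ≤ ‖F y - D (s y)‖ := by
      rw [eq_neg_of_add_eq_zero_left e, norm_neg, norm_smul, Real.norm_of_nonneg h0,
        ← eq_neg_of_add_eq_zero_left e]
      exact mul_le_of_le_one_left (norm_nonneg _) ht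
    have h5 : 0 < ‖s y‖ := norm_pos_iff.2 (hs hy)
    have h6 := hK' (s y)
    have h7 : K * ((2 * K : ℝ)⁻¹ * ‖s y‖) = ‖s y‖ / 2 := by field_simp
    have h8 := mul_le_mul_of_nonneg_left (h4.trans h3) hKp.le
    linarith
  refine ⟨fun y hy => by simpa using key y hy 1 zero_le_one le_rfl, fun t ht => ?_⟩
  exact deg_line (h := (⟨D, D.continuous⟩ : C(_, _)).comp s) key (Dg.comp b hs ht)

end Crest.Agent.X212.Ori83

end
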