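import Crest.Agent.X212.Ori83.Nv
import Crest.Agent.R275.ZC0_352
import Crest.Prelude.Def_DehnFilling

/-!
# Row 212, ORI (helper83), part 5: compatibility with the collapse maps on `H₃` forces a positive Jacobian
-/

set_option autoImplicit false
open Set Filter Topology Metric CategoryTheory
open scoped Manifold ContDiff

noncomputable section

namespace Crest.Agent.X212.Ori83

open Crest.Agent.N255.Tp Crest.GeometryTopology.DehnSurgery

section bridge

open Crest.Agent.R275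

variable {X Y Z : Type} [TopologicalSpace X] [TopologicalSpace Y] [TopologicalSpace Z] {n : ℕ}

theorem intH3Map_comp (f : C(X, Y)) (g : C(Y, Z)) :
    intH3Map (g.comp f) = intH3Map f ≫ intH3Map g := by
  unfold intH3Map
  rw [← Functor.map_comp]
  rfl

theorem intH3Map_homotopic {f g : C(X, Y)} (h : f.Homotopic g) : intH3Map f = intH3Map g :=
  ModuleCat.hom_ext (ZC352.Hmap_homotopic (k := ℤ) h 3)

theorem lift_bd (φ : Co ℚ n X) (σ : Sx (n + 1) X) :
    ZC352.liftC (k := ℤ) φ (ZC352.bd ℤ X n (ZC352.sgl ℤ σ)) = cob ℚ φ σ := by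
  rw [ZC352.bd_sgl, map_sum, cob_apply]
  refine Finset.sum_congr rfl fun i _ => ?_
  rw [map_zsmul, ZC352.liftC_sgl, zsmul_eq_mul]
  push_cast
  rfl

theorem lift_push (f : C(X, Y)) (φ : Co ℚ n Y) (z : (ZC352.SC ℤ X).X n) :
    ZC352.liftC (k := ℤ) φ (ZC352.push ℤ f n z) = ZC352.liftC (k := ℤ) (pull ℚ f φ) z := by
  have := ZC352.chain_ext ((ZC352.liftC (k := ℤ) φ).comp (ZC352.push ℤ f n))
    (ZC352.liftC (k := ℤ) (pull ℚ f φ)) fun σ => by
      rw [LinearMap.comp_apply, ZC352.push_sgl, ZC352.liftC_sgl, ZC352.liftC_sgl]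
      rfl
  exact LinearMap.congr_fun this z

theorem ext_rat {A B : Type} [AddCommGroup A] [AddCommGroup B] [iA : Module ℤ A] [iB : Module ℤ B]
    (b : A →ₗ[ℤ] B) (L : A →ₗ[ℤ] ℚ) (h : LinearMap.ker b ≤ LinearMap.ker L) :
    ∃ e : B →ₗ[ℤ] ℚ, ∀ z, e (b z) = L z := by
  obtain rfl : iA = AddCommGroup.toIntModule A := Subsingleton.elim _ _
  obtain rfl : iB = AddCommGroup.toIntModule B := Subsingleton.elim _ _
  obtain ⟨e, he⟩ := (Module.Baer.of_divisible ℚ).extension_property_addMonoidHom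
    (QuotientAddGroup.kerLift b.toAddMonoidHom) (QuotientAddGroup.kerLift_injective _)
    (QuotientAddGroup.lift _ L.toAddMonoidHom fun z hz => h hz)
  exact ⟨e.toIntLinearMap, fun z => DFunLike.congr_fun he (QuotientAddGroup.mk z)⟩

/-- equal maps on integral homology pull a rational cocycle back to cohomologous cocycles -/
theorem exact_of_Hmap {f g : C(X, Y)}
    (h : ZC352.Hmap (k := ℤ) f (n + 1) = ZC352.Hmap (k := ℤ) g (n + 1))
    {χ : Co ℚ (n + 1) Y} (hχ : cob ℚ χ = 0) : ∃ θ, cob ℚ θ = pull ℚ f χ - pull ℚ g χ := by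
  have h0 : (ZC352.liftC (k := ℤ) χ).comp (ZC352.bd ℤ Y (n + 1)) = 0 :=
    ZC352.chain_ext _ _ fun σ => by rw [LinearMap.comp_apply, lift_bd, hχ]; rfl
  set L := ZC352.liftC (k := ℤ) (pull ℚ f χ) - ZC352.liftC (k := ℤ) (pull ℚ g χ) with hL
  have h1 : LinearMap.ker (ZC352.bd ℤ X n) ≤ LinearMap.ker L := by
    intro z hz
    have hz' : ZC352.bd ℤ X n z = 0 := hz
    have h2 := LinearMap.congr_fun h (ZC352.cls z hz')
    rw [ZC352.map_cls, ZC352.map_cls, ← sub_eq_zero, ← ZC352.cls_sub, ZC352.cls_eq_zero_iff] at h2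
    obtain ⟨y, hy⟩ := h2
    have h3 := LinearMap.congr_fun h0 y
    rw [LinearMap.comp_apply, hy, map_sub, lift_push, lift_push] at h3
    exact h3
  obtain ⟨e, he⟩ := ext_rat (ZC352.bd ℤ X n) L h1
  refine ⟨fun σ => e (ZC352.sgl ℤ σ), funext fun σ => ?_⟩
  have h4 : ZC352.liftC (k := ℤ) (fun σ : Sx n X => e (ZC352.sgl ℤ σ)) = e :=
    ZC352.chain_ext _ _ fun σ => ZC352.liftC_sgl _ _
  rw [← lift_bd, h4, he, hL, LinearMap.sub_apply, ZC352.liftC_sgl, ZC352.liftC_sgl]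
  rfl

theorem exact_of_intH3 {f g : C(X, Y)} (h : intH3Map f = intH3Map g) {χ : Co ℚ 3 Y}
    (hχ : cob ℚ χ = 0) : ∃ θ, cob ℚ θ = pull ℚ f χ - pull ℚ g χ :=
  exact_of_Hmap (n := 2) (congrArg ModuleCat.Hom.hom h) hχ

end bridge

variable {d : ℕ} {M M' N P : Type} [TopologicalSpace M] [TopologicalSpace M'] [TopologicalSpace N]
  [TopologicalSpace P]

theorem Val.congr {e : OpenPartialHomeomorph M (EE (d + 1))} {x : M} (hx : x ∈ e.source)
    {a a' : C(M, P)} {χ : Co ℚ (d + 1) P} {t : ℚ} (h : ∀ᶠ y in 𝓝 x, a y = a' y)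
    (hv : Val e (e x) (N255.Tp.pull ℚ a' χ) t) : Val e (e x) (N255.Tp.pull ℚ a χ) t := by
  obtain ⟨r, hr, hb, h1⟩ := hv.exists hx
  have h2 : ∀ᶠ z in 𝓝 (e x), a (e.symm z) = a' (e.symm z) :=
    (e.continuousAt_symm (e.map_source hx)).eventually (by rwa [e.left_inv hx])
  have := transfer (e := e) a a' hr hb h1 (h := id) rfl (hasFDerivAt_id _)
    (by simp [ContinuousLinearMap.det]) (h2.mono fun z hz => ⟨continuousAt_id, hz⟩)
  rwa [show (ContinuousLinearMap.id ℝ (EE (d + 1))).det = 1 by simp [ContinuousLinearMap.det],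
    sg_pos one_pos, mul_one] at this

variable [ChartedSpace (EE (d + 1)) M] [ChartedSpace (EE (d + 1)) M'] [ChartedSpace (EE (d + 1)) N]

variable (d) in
/-- a map read in the preferred charts -/
def rd (g : M → M') (x : M) : EE (d + 1) → EE (d + 1) :=
  chartAt (EE (d + 1)) (g x) ∘ g ∘ (chartAt (EE (d + 1)) x).symm

theorem val_rd (g : C(M, M')) {χ : Co ℚ (d + 1) M'} {x : M} {t : ℚ}
    (a : Val (chartAt (EE (d + 1)) (g x)) (chartAt (EE (d + 1)) (g x) (g x)) χ t)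
    {D : EE (d + 1) →L[ℝ] EE (d + 1)} (hD : HasFDerivAt (rd d g x) D (chartAt (EE (d + 1)) x x))
    (h0 : D.det ≠ 0) :
    Val (chartAt (EE (d + 1)) x) (chartAt (EE (d + 1)) x x) (pull ℚ g χ) (t * sg D.det) :=
  Val.pull g (mem_chart_source _ x) (mem_chart_source _ (g x)) a hD h0

/-- abstract form -/
theorem ori_abs [T2Space M] [T2Space M'] [CompactSpace M] [PreconnectedSpace M]
    [PreconnectedSpace M'] {ρ : M → ℝ} {ρ' : M' → ℝ} (hρ : OrF d ρ) (hρ' : OrF d ρ')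
    (π : C(M, P)) (π' : C(M', P)) (g : C(M, M')) (hg : Function.Injective g)
    (H : ∀ χ : Co ℚ (d + 1) P, cob ℚ χ = 0 → ∃ θ, cob ℚ θ = pull ℚ π χ - pull ℚ (π'.comp g) χ)
    (i : C(N, M)) (i' : C(N, M')) (u : N) (hu : ∀ᶠ y in 𝓝 u, π (i y) = π' (i' y))
    (h1 : ∀ x, π x = π (i u) → x = i u) (h1' : ∀ x, π' x = π' (i' u) → x = i' u)
    (hc : IsClosed {π' (i' u)})
    (ho : ∃ W ∈ 𝓝 (i' u), InjOn π' W ∧ ∀ V ⊆ W, IsOpen V → IsOpen (π' '' V))
    {D D' : EE (d + 1) →L[ℝ] EE (d + 1)} (hD : HasFDerivAt (rd d i u) D (chartAt (EE (d + 1)) u u))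
    (hD' : HasFDerivAt (rd d i' u) D' (chartAt (EE (d + 1)) u u))
    (hp : 0 < D.det * D'.det * ρ (i u) * ρ' (i' u))
    (y : M) {G : EE (d + 1) →L[ℝ] EE (d + 1)}
    (hG : HasFDerivAt (rd d g y) G (chartAt (EE (d + 1)) y y)) (hG0 : G.det ≠ 0) :
    0 < G.det * ρ y * ρ' (g y) := by
  obtain ⟨W, hW, hi, hop⟩ := ho
  have hx' := mem_chart_source (EE (d + 1)) (i' u)
  have hx := mem_chart_source (EE (d + 1)) (i u)
  set e' := chartAt (EE (d + 1)) (i' u) with he'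
  have a1 : e'.target ∩ e'.symm ⁻¹' W ∈ 𝓝 (e' (i' u)) :=
    inter_mem (e'.open_target.mem_nhds (e'.map_source hx'))
      ((e'.continuousAt_symm (e'.map_source hx')).preimage_mem_nhds (by rwa [e'.left_inv hx']))
  obtain ⟨r, hr, a2⟩ := Metric.mem_nhds_iff.1 a1
  have hb := a2.trans inter_subset_left
  have hj := isOpenEmbedding_cell hr hb
  have hm : ∀ z, cell e' _ r hr hb z ∈ W := fun z => (a2 (add_sq_mem hr _ z)).2
  have hj' : IsOpenEmbedding (π'.comp (cell e' _ r hr hb)) :=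
    .of_continuous_injective_isOpenMap (π'.comp _).continuous
      (fun a b h => hj.injective (hi (hm a) (hm b) h)) fun V hV => by
        rw [ContinuousMap.coe_comp, image_comp]
        exact hop _ (by rintro _ ⟨z, -, rfl⟩; exact hm z) (hj.isOpenMap V hV)
  have e0 : (π'.comp (cell e' _ r hr hb)) 0 = π' (i' u) := congrArg π' (cell_zero hr hb hx')
  obtain ⟨χ₀, b1, b2⟩ := exists_at hj' (by rwa [e0])
  rw [e0] at b1
  set χ := sg (ρ' (i' u)) • χ₀
  have b3 : At (π' (i' u)) χ := b1.smul _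
  have p' : Pos ρ' (i' u) (pull ℚ π' χ) := ⟨b3.pull π' fun x hx h => hx (h1' x h), by
    have := b2.smul (sg (ρ' (i' u)))
    rw [mul_one] at this
    exact val_of_dg hr hb this⟩
  have eu : π (i u) = π' (i' u) := hu.self_of_nhds
  have b4 : At (i u) (pull ℚ π χ) := b3.pull π fun x hx h => hx (h1 x (h.trans eu.symm))
  have n1 : D.det * D'.det * ρ (i u) ≠ 0 := left_ne_zero_of_mul hp.ne'
  have n2 : D.det * D'.det ≠ 0 := left_ne_zero_of_mul n1
  have p : Pos ρ (i u) (pull ℚ π χ) := ⟨b4, by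
    obtain ⟨r₁, hr₁, hb₁, -⟩ := exists_rad hx one_pos
    obtain ⟨s, hs⟩ := exists_dg (cell_maps hr₁ hb₁ hx) b4
    have v := val_of_dg hr₁ hb₁ hs
    have v1 : Val _ _ (pull ℚ (π.comp i) χ) _ := val_rd i v hD (left_ne_zero_of_mul n2)
    have v2 : Val _ _ (pull ℚ (π'.comp i') χ) _ := val_rd i' p'.2 hD' (right_ne_zero_of_mul n2)
    have hu' := mem_chart_source (EE (d + 1)) u
    have v3 := (Val.congr hu' hu v2).unique v1 hu'
    have v4 := sg_of_pos hp
    rw [sg_mul (left_ne_zero_of_mul n2) (right_ne_zero_of_mul n2)] at v4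
    have : s = sg (ρ (i u)) := by
      have q1 := sg_sq D.det
      have q2 := sg_sq D'.det
      linear_combination (-s) * q1 - sg D.det * v3 - sg D.det * sg D'.det * v4 +
        sg (ρ (i u)) * (sg D'.det * sg D'.det) * q1 + sg (ρ (i u)) * q2
    exact this ▸ v⟩
  by_contra hn
  have n3 : G.det * ρ y * ρ' (g y) ≠ 0 := mul_ne_zero (mul_ne_zero hG0 (hρ.ne y)) (hρ'.ne _)
  have hneg : 0 < G.det * ρ' (g y) * -ρ y := by
    have := lt_of_le_of_ne (not_lt.1 hn) n3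
    linarith
  obtain ⟨ψ', q'⟩ := exists_pos (d := d) ρ' (g y)
  have q : Pos ρ y ((-1 : ℚ) • pull ℚ g ψ') := ⟨(q'.1.pull g fun x hx h => hx (hg h)).smul _, by
    have := (val_rd g q'.2 hG hG0).smul (-1)
    have e : sg (-ρ y) = -sg (ρ y) := by
      rw [← neg_one_mul, sg_mul (by norm_num) (hρ.ne y), sg_neg (by norm_num), neg_one_mul]
    rwa [sg_of_pos hneg, e, neg_one_mul, neg_neg] at this⟩
  obtain ⟨θ₁, -, c1⟩ := pos_conn hρ isOpen_univ isPreconnected_univ (mem_univ _) (mem_univ _) q p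
  obtain ⟨θ₂, -, c2⟩ := pos_conn hρ' isOpen_univ isPreconnected_univ (mem_univ _) (mem_univ _) q' p'
  obtain ⟨θ₃, c3⟩ := H χ b3.1
  refine p.not_bc hρ (mem_bc_univ.2 ⟨(-1 / 2 : ℚ) • (θ₁ + pull ℚ g θ₂ - θ₃), ?_⟩)
  rw [map_smul, map_sub, map_add, cob_pull, c1, c2, c3, map_sub, ← pull_pull]
  module

end Crest.Agent.X212.Ori83

end
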