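import Crest.Agent.X212.Ori83.Pos

/-!
# Row 212, ORI (helper83), part 4: on a closed oriented manifold a positive local class is not exact
-/

set_option autoImplicit false
open Set Filter Topology Metric

noncomputable section

namespace Crest.Agent.X212.Ori83

open Crest.Agent.N255.Tp Crest.Agent.R251.Pr

variable {M : Type} [TopologicalSpace M] {d : ℕ} [ChartedSpace (EE (d + 1)) M] {A : M → ℝ}
  {U V : Set M} {x : M} {φ : Co ℚ (d + 1) M} {t : ℚ}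

variable (d) in
/-- compactly supported top cocycles with their candidate integrals -/
def Ww (A : M → ℝ) (U : Set M) : Submodule ℚ (Co ℚ (d + 1) M × ℚ) :=
  Submodule.span ℚ ({p | (∃ x ∈ U, Pos A x p.1) ∧ p.2 = 1} ∪ {p | p.1 ∈ Bc U d ∧ p.2 = 0})

theorem Ww_pos (hx : x ∈ U) (h : Pos A x φ) : (φ, (1 : ℚ)) ∈ Ww d A U :=
  Submodule.subset_span (Or.inl ⟨⟨x, hx, h⟩, rfl⟩)

theorem Ww_bc (h : φ ∈ Bc U d) : (φ, (0 : ℚ)) ∈ Ww d A U :=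
  Submodule.subset_span (Or.inr ⟨h, rfl⟩)

theorem Ww_le {Q : Submodule ℚ (Co ℚ (d + 1) M × ℚ)}
    (h1 : ∀ x ∈ U, ∀ φ, Pos A x φ → (φ, (1 : ℚ)) ∈ Q)
    (h2 : ∀ θ ∈ Cc ℚ U ℚ d, (cob ℚ θ, (0 : ℚ)) ∈ Q) : Ww d A U ≤ Q := by
  refine Submodule.span_le.2 ?_
  rintro ⟨φ, t⟩ (⟨⟨x, hx, h⟩, rfl⟩ | ⟨⟨θ, hθ, rfl⟩, rfl⟩)
  exacts [h1 x hx φ h, h2 θ hθ]

theorem Ww_mono (h : U ⊆ V) : Ww d A U ≤ Ww d A V :=
  Ww_le (fun _ hx _ a => Ww_pos (h hx) a) fun θ hθ => Ww_bc ⟨θ, Cc_mono h hθ, rfl⟩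

theorem Ww_mem (h : (φ, t) ∈ Ww d A U) : φ ∈ Cc ℚ U ℚ (d + 1) ∧ cob ℚ φ = 0 := by
  have : Ww d A U ≤ (Cc ℚ U ℚ (d + 1) ⊓ LinearMap.ker (cob ℚ)).prod ⊤ :=
    Ww_le (fun x hx φ a => ⟨⟨⟨{x}, isCompact_singleton, singleton_subset_iff.2 hx, a.1.2⟩, a.1.1⟩,
      trivial⟩) fun θ hθ => ⟨⟨cob_mem_Cc hθ, cob_cob θ⟩, trivial⟩
  exact (this h).1

variable [T2Space M]

theorem Ww_span (hU : IsOpen U) (h : φ ∈ Cc ℚ U ℚ (d + 1)) (hc : cob ℚ φ = 0) :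
    ∃ t, (φ, t) ∈ Ww d A U := by
  refine top_ind smVanS_holds locS_holds (Q := fun φ => ∃ t, (φ, t) ∈ Ww d A U)
    ⟨0, Submodule.zero_mem _⟩ ?_ hU ?_ φ h hc
  · rintro a - b - - - ⟨s, hs⟩ ⟨t, ht⟩
    exact ⟨s + t, Submodule.add_mem _ hs ht⟩
  · rintro j hj hr φ ⟨K, hK, hKj, hφ⟩ hc
    obtain ⟨R, hR, h1⟩ := exists_ball hj.isEmbedding 0 hK hKj
    obtain ⟨φ₀, a, b, h2⟩ := (locS_holds ℚ M d j hj 0).2
    obtain ⟨t, ψ, hψ, rfl⟩ := h2 R hR φ hc (van_supp h1 hφ)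
    obtain ⟨χ, hχ⟩ := exists_pos (d := d) A (j 0)
    obtain ⟨s, hs⟩ := hχ.span ⟨b, a⟩
    have h0 : j 0 ∈ U := hr ⟨0, rfl⟩
    have h3 := Ww_bc (A := A) (exa_le_Bc isCompact_singleton (singleton_subset_iff.2 h0) hs)
    have h4 := Ww_bc (A := A) (U := U) ⟨ψ, ⟨_, (isCompact_closedBall 0 R).image j.continuous,
      (image_subset_range _ _).trans hr, hψ⟩, rfl⟩
    refine ⟨t * s, ?_⟩
    convert Submodule.add_mem _ (Submodule.smul_mem _ t (Submodule.add_mem _ h3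
      (Submodule.smul_mem _ s (Ww_pos h0 hχ)))) h4 using 1
    simp

theorem Ww_cell (hA : OrF d A) {j : C(EE (d + 1), M)} (hj : IsOpenEmbedding j)
    (h : ((0 : Co ℚ (d + 1) M), t) ∈ Ww d A (range j)) : t = 0 := by
  obtain ⟨χ, hχ⟩ := exists_pos (d := d) A (j 0)
  obtain ⟨c, hc⟩ := exists_dg (j := j) (fun _ hz a => hz (hj.injective a)) hχ.1
  have hc0 : c ≠ 0 := by
    rintro rfl
    have hx := mem_chart_source (EE (d + 1)) (j 0)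
    obtain ⟨r, hr, hb, h1⟩ := hχ.2.exists hx
    exact sg_ne _ (h1.unique (Dg.of_exa (cell_maps hr hb hx) (hc.exa hj hχ.1)))
  let Q : Submodule ℚ (Co ℚ (d + 1) M × ℚ) :=
    { carrier := {p | ∃ R, 0 ≤ R ∧ pull ℚ j p.1 - (p.2 * c) • g0 d ∈ Exa ℚ ℚ (closedBall 0 R) (d + 1)}
      zero_mem' := ⟨0, le_rfl, by simp⟩
      add_mem' := by
        rintro p q ⟨R, hR, a⟩ ⟨S, -, b⟩
        refine ⟨max R S, le_max_of_le_left hR, ?_⟩
        convert Submodule.add_mem _ (exa_mono (closedBall_subset_closedBall (le_max_left R S)) a)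
          (exa_mono (closedBall_subset_closedBall (le_max_right R S)) b) using 1
        rw [Prod.fst_add, Prod.snd_add, map_add, add_mul, add_smul]
        abel
      smul_mem' := by
        rintro r p ⟨R, hR, a⟩
        refine ⟨R, hR, ?_⟩
        convert Submodule.smul_mem _ r a using 1
        rw [Prod.smul_fst, Prod.smul_snd, map_smul, smul_sub, smul_smul, smul_eq_mul, mul_assoc] }
  have hb : ∀ θ ∈ Cc ℚ (range j) ℚ d, (cob ℚ θ, (0 : ℚ)) ∈ Q := by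
    rintro θ ⟨K, hK, hKj, hθ⟩
    obtain ⟨R, hR, h1⟩ := exists_ball hj.isEmbedding 0 hK hKj
    refine ⟨R, hR, ?_⟩
    rw [zero_mul, zero_smul, sub_zero]
    exact ⟨pull ℚ j θ, pull_van hj.injective (van_supp h1 hθ), rfl⟩
  have : Ww d A (range j) ≤ Q := Ww_le (fun x hx φ a => by
    obtain ⟨θ, hθ, e⟩ := pos_conn hA hj.isOpen_range (isPreconnected_range j.continuous) hx
      ⟨0, rfl⟩ a hχ
    have h1 : (χ, (1 : ℚ)) ∈ Q := ⟨0, le_rfl, by rw [one_mul, closedBall_zero]; exact hc⟩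
    convert Submodule.add_mem _ (hb θ hθ) h1 using 1
    rw [e]
    simp) hb
  obtain ⟨R, hR, h1⟩ := this h
  rw [map_zero, zero_sub, ← neg_smul] at h1
  exact (mul_eq_zero.1 (neg_eq_zero.1 (g0_nt hR h1))).resolve_right hc0

theorem Ww_union (hU : IsOpen U) (hV : IsOpen V)
    (pU : ∀ t, ((0 : Co ℚ (d + 1) M), t) ∈ Ww d A U → t = 0)
    (pV : ∀ t, ((0 : Co ℚ (d + 1) M), t) ∈ Ww d A V → t = 0)
    (h : ((0 : Co ℚ (d + 1) M), t) ∈ Ww d A (U ∪ V)) : t = 0 := by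
  have : Ww d A (U ∪ V) ≤ Ww d A U ⊔ Ww d A V := Ww_le
    (fun x hx φ a => hx.elim (fun h => Submodule.mem_sup_left (Ww_pos h a))
      fun h => Submodule.mem_sup_right (Ww_pos h a)) fun θ hθ => by
      rw [Cc_union hU hV, Submodule.mem_sup] at hθ
      obtain ⟨a, ha, b, hb, rfl⟩ := hθ
      convert Submodule.add_mem_sup (Ww_bc (A := A) ⟨a, ha, rfl⟩) (Ww_bc (A := A) ⟨b, hb, rfl⟩)
        using 1
      simp
  obtain ⟨⟨a, s⟩, ha, ⟨b, r⟩, hb, e⟩ := Submodule.mem_sup.1 (this h)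
  obtain ⟨e1, e2⟩ := Prod.ext_iff.1 e
  obtain rfl : b = -a := eq_neg_of_add_eq_zero_right e1
  obtain ⟨⟨K, hK, hKU, h1⟩, hc⟩ := Ww_mem ha
  obtain ⟨⟨L, hL, hLV, h2⟩, -⟩ := Ww_mem hb
  obtain ⟨η, h3, h4, h5⟩ := inter_supp smVanS_holds hK.isClosed hL.isClosed hc h1
    (by simpa using Submodule.neg_mem _ h2)
  obtain ⟨q, hq⟩ := Ww_span (A := A) (hU.inter hV)
    ⟨K ∩ L, hK.inter hL, inter_subset_inter hKU hLV, h5⟩ (by simp [hc])
  have h6 := pU (s - q) (by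
    convert Submodule.sub_mem _ (Submodule.sub_mem _ ha (Ww_mono inter_subset_left hq))
      (Ww_bc (A := A) ⟨η, ⟨K, hK, hKU, h3⟩, rfl⟩) using 1
    simp)
  have h7 := pV (r + q) (by
    convert Submodule.add_mem _ (Submodule.add_mem _ hb (Ww_mono inter_subset_right hq))
      (Ww_bc (A := A) ⟨η, ⟨L, hL, hLV, h4⟩, rfl⟩) using 1
    exact Prod.ext (by simp only [Prod.fst_add]; abel) (by simp))
  have e3 : s + r = t := e2
  linarith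

theorem Ww_zero (hA : OrF d A) (hU : IsOpen U) :
    ∀ t, ((0 : Co ℚ (d + 1) M), t) ∈ Ww d A U → t = 0 := by
  refine openIndS_holds (d + 1) M
    (fun U => ∀ t, ((0 : Co ℚ (d + 1) M), t) ∈ Ww d A U → t = 0) (fun t h => ?_)
    (fun j hj t h => Ww_cell hA hj h) (fun U V hU hV a b _ t h => Ww_union hU hV a b h)
    (fun 𝒰 hne h hd t ht => ?_) U hU
  · have : Ww d A ∅ ≤ (⊤ : Submodule ℚ (Co ℚ (d + 1) M)).prod ⊥ :=
      Ww_le (fun _ hx => hx.elim) fun _ _ => ⟨trivial, rfl⟩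
    exact (this h).2
  · have : Nonempty 𝒰 := hne.to_subtype
    have : Ww d A (⋃₀ 𝒰) ≤ ⨆ U : 𝒰, Ww d A U := Ww_le
      (fun x ⟨U, hU, hx⟩ φ a => Submodule.mem_iSup_of_mem (⟨U, hU⟩ : 𝒰) (Ww_pos hx a))
      fun θ hθ => by
        obtain ⟨U, hU, h1⟩ := Cc_sUnion hne (fun U hU => (h U hU).1) hd hθ
        exact Submodule.mem_iSup_of_mem (⟨U, hU⟩ : 𝒰) (Ww_bc ⟨θ, h1, rfl⟩)
    obtain ⟨U, hU⟩ := (Submodule.mem_iSup_of_directed _ (fun U V => by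
      obtain ⟨W, hW, a, b⟩ := hd U.1 U.2 V.1 V.2
      exact ⟨⟨W, hW⟩, Ww_mono a, Ww_mono b⟩)).1 (this ht)
    exact (h U U.2).2 t hU

/-- **a positive class is not the coboundary of a compactly supported cochain** -/
theorem Pos.not_bc (hA : OrF d A) (h : Pos A x φ) : φ ∉ Bc univ d := fun hb => by
  have := Submodule.sub_mem _ (Ww_pos (mem_univ x) h) (Ww_bc (A := A) hb)
  exact one_ne_zero (Ww_zero hA isOpen_univ 1 (by simpa using this))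

omit [ChartedSpace (EE (d + 1)) M] [T2Space M] in
theorem mem_bc_univ [CompactSpace M] : φ ∈ Bc univ d ↔ ∃ θ, cob ℚ θ = φ :=
  ⟨fun ⟨θ, _, e⟩ => ⟨θ, e⟩, fun ⟨θ, e⟩ => ⟨θ, ⟨univ, isCompact_univ, subset_rfl,
    fun σ hσ => absurd (hσ ⟨stdSimplex.vertex 0, rfl⟩) (by simp)⟩, e⟩⟩

end Crest.Agent.X212.Ori83

end
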