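import Crest.Agent.X212.Ori83.Lin

/-!
# Row 212, ORI (helper83), part 3: orientations and positive local classes
-/

set_option autoImplicit false
open Set Filter Topology Metric

noncomputable section

namespace Crest.Agent.X212.Ori83

open Crest.Agent.N255.Tp Crest.Agent.R251.Pr

variable {M M' P : Type} [TopologicalSpace M] [TopologicalSpace M'] [TopologicalSpace P] {d : ℕ}

/-- squash onto the ball of radius `r` -/
def sq (r : ℝ) : C(EE (d + 1), EE (d + 1)) :=
  ⟨OpenPartialHomeomorph.univBall 0 r, OpenPartialHomeomorph.continuous_univBall 0 r⟩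

theorem sq_apply {r : ℝ} (hr : 0 < r) (y : EE (d + 1)) :
    sq r y = (r * (√(1 + ‖y‖ ^ 2))⁻¹) • y := by
  change OpenPartialHomeomorph.univBall (0 : EE (d + 1)) r y = _
  rw [OpenPartialHomeomorph.univBall, dif_pos hr]
  change r • (√(1 + ‖y‖ ^ 2))⁻¹ • y + 0 = _
  rw [add_zero, smul_smul]

theorem sq_deg {r : ℝ} (hr : 0 < r) : PM (sq (d := d) r) ∧ Deg (sq (d := d) r) 1 :=
  deg_scale _ (fun y => by positivity) (sq_apply hr)

theorem sq_zero (r : ℝ) : sq (d := d) r 0 = 0 := OpenPartialHomeomorph.univBall_apply_zero 0 r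

theorem norm_sq_lt {r : ℝ} (hr : 0 < r) (y : EE (d + 1)) : ‖sq r y‖ < r := by
  have := (OpenPartialHomeomorph.univBall (0 : EE (d + 1)) r).map_source (x := y) (by simp)
  rw [OpenPartialHomeomorph.univBall_target _ hr, mem_ball_zero_iff] at this
  exact this

/-- inverse of the squash -/
def us (r : ℝ) : EE (d + 1) → EE (d + 1) := (OpenPartialHomeomorph.univBall (0 : EE (d + 1)) r).symm

theorem sq_us {r : ℝ} (hr : 0 < r) {z : EE (d + 1)} (hz : ‖z‖ < r) : sq r (us r z) = z :=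
  (OpenPartialHomeomorph.univBall (0 : EE (d + 1)) r).right_inv (by
    rwa [OpenPartialHomeomorph.univBall_target _ hr, mem_ball_zero_iff])

theorem us_sq (r : ℝ) (y : EE (d + 1)) : us r (sq r y) = y :=
  (OpenPartialHomeomorph.univBall (0 : EE (d + 1)) r).left_inv (by simp)

theorem continuousOn_us (r : ℝ) : ContinuousOn (us (d := d) r) (ball 0 r) :=
  OpenPartialHomeomorph.continuousOn_univBall_symm 0 r

theorem add_sq_mem {r : ℝ} (hr : 0 < r) (c y : EE (d + 1)) : c + sq r y ∈ ball c r := by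
  simpa using norm_sq_lt hr y

/-- the cell given by a ball in a chart -/
def cell (e : OpenPartialHomeomorph M (EE (d + 1))) (c : EE (d + 1)) (r : ℝ) (hr : 0 < r)
    (h : ball c r ⊆ e.target) : C(EE (d + 1), M) :=
  ⟨fun y => e.symm (c + sq r y), e.continuousOn_symm.comp_continuous (by fun_prop)
    fun y => h (add_sq_mem hr c y)⟩

variable {e : OpenPartialHomeomorph M (EE (d + 1))} {e' : OpenPartialHomeomorph M' (EE (d + 1))}
  {c c' : EE (d + 1)} {r r' : ℝ} {x y : M} {φ ψ : Co ℚ (d + 1) M} {s t : ℚ}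

theorem cell_apply (hr : 0 < r) (h : ball c r ⊆ e.target) (z : EE (d + 1)) :
    cell e c r hr h z = e.symm (c + sq r z) := rfl

theorem cell_zero (hr : 0 < r) (h : ball (e x) r ⊆ e.target) (hx : x ∈ e.source) :
    cell e (e x) r hr h 0 = x := by
  rw [cell_apply, sq_zero, add_zero, e.left_inv hx]

theorem isOpenEmbedding_cell (hr : 0 < r) (h : ball c r ⊆ e.target) :
    IsOpenEmbedding (cell e c r hr h) := by
  have := (((OpenPartialHomeomorph.univBall (0 : EE (d + 1)) r).transHomeomorph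
    (Homeomorph.addLeft c)).trans e.symm).isOpenEmbedding (by
      refine eq_univ_of_forall fun y => ⟨by simp, ?_⟩
      exact h (add_sq_mem hr c y))
  exact this

theorem cell_maps (hr : 0 < r) (h : ball (e x) r ⊆ e.target) (hx : x ∈ e.source) :
    MapsTo (cell e (e x) r hr h) {0}ᶜ {x}ᶜ := fun _ hz a =>
  hz ((isOpenEmbedding_cell hr h).injective ((mem_singleton_iff.1 a).trans (cell_zero hr h hx).symm))

theorem exists_rad (hx : x ∈ e.source) {δ : ℝ} (hδ : 0 < δ) :
    ∃ r, 0 < r ∧ ball (e x) r ⊆ e.target ∧ r < δ := by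
  obtain ⟨r, hr, h⟩ := Metric.isOpen_iff.1 e.open_target _ (e.map_source hx)
  exact ⟨min r (δ / 2), by positivity, (ball_subset_ball (min_le_left _ _)).trans h,
    (min_le_right _ _).trans_lt (by linarith)⟩

/-- value of a local class in a chart -/
def Val (e : OpenPartialHomeomorph M (EE (d + 1))) (c : EE (d + 1)) (φ : Co ℚ (d + 1) M) (t : ℚ) :
    Prop := ∃ δ > 0, ∀ r (hr : 0 < r) (h : ball c r ⊆ e.target), r < δ → Dg (cell e c r hr h) φ t

theorem Val.exists (a : Val e (e x) φ t) (hx : x ∈ e.source) :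
    ∃ r hr h, Dg (cell e (e x) r hr h) φ t := by
  obtain ⟨δ, hδ, h⟩ := a
  obtain ⟨r, h1, h2, h3⟩ := exists_rad hx hδ
  exact ⟨r, h1, h2, h r h1 h2 h3⟩

theorem Val.unique (a : Val e (e x) φ s) (b : Val e (e x) φ t) (hx : x ∈ e.source) : s = t := by
  obtain ⟨δ, hδ, h⟩ := a
  obtain ⟨δ', hδ', h'⟩ := b
  obtain ⟨r, h1, h2, h3⟩ := exists_rad hx (lt_min hδ hδ')
  exact (h r h1 h2 (h3.trans_le (min_le_left _ _))).unique
    (h' r h1 h2 (h3.trans_le (min_le_right _ _)))

theorem Val.smul (a : Val e c φ s) (q : ℚ) : Val e c (q • φ) (q * s) :=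
  let ⟨δ, hδ, h⟩ := a; ⟨δ, hδ, fun r hr hb hl => (h r hr hb hl).smul q⟩

/-- change of charts along a differentiable germ -/
theorem transfer (a : C(M, P)) (a' : C(M', P)) {χ : Co ℚ (d + 1) P} (hr' : 0 < r')
    (hb' : ball c' r' ⊆ e'.target) (hv : Dg (cell e' c' r' hr' hb') (pull ℚ a' χ) t)
    {h : EE (d + 1) → EE (d + 1)} {D : EE (d + 1) →L[ℝ] EE (d + 1)} (hc : h c = c')
    (hD : HasFDerivAt h D c) (h0 : D.det ≠ 0)
    (hn : ∀ᶠ z in 𝓝 c, ContinuousAt h z ∧ a (e.symm z) = a' (e'.symm (h z))) :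
    Val e c (pull ℚ a χ) (t * sg D.det) := by
  obtain ⟨δ₁, hδ₁, h1⟩ := deg_loc hD h0
  have h2 : ∀ᶠ z in 𝓝 c, h z ∈ ball c' r' :=
    hD.continuousAt.eventually_mem (hc ▸ ball_mem_nhds _ hr')
  obtain ⟨δ₂, hδ₂, h3⟩ := Metric.eventually_nhds_iff.1 (hn.and h2)
  refine ⟨min δ₁ δ₂, lt_min hδ₁ hδ₂, fun r hr hb hl => ?_⟩
  have h4 := fun y => h3 (y := c + sq r y)
    ((add_sq_mem hr c y).trans (hl.trans_le (min_le_right _ _)))
  have h5 : ∀ y, ‖h (c + sq r y) - h c‖ < r' := fun y => by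
    rw [hc, ← dist_eq_norm]; exact (h4 y).2
  let G : C(EE (d + 1), EE (d + 1)) := ⟨fun y => h (c + sq r y) - h c,
    (continuous_iff_continuousAt.2 fun y => ContinuousAt.comp (f := fun y => c + sq r y)
      (h4 y).1.1 (by fun_prop)).sub continuous_const⟩
  let F : C(EE (d + 1), EE (d + 1)) := ⟨fun y => us r' (G y),
    (continuousOn_us r').comp_continuous G.continuous fun y => mem_ball_zero_iff.2 (h5 y)⟩
  have e1 : (sq r').comp F = G := ContinuousMap.ext fun y => sq_us hr' (h5 y)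
  obtain ⟨pG, dG⟩ := h1 (sq r) (sq_deg hr).1
    (fun y => (norm_sq_lt hr y).trans (hl.trans_le (min_le_left _ _))) G fun _ => rfl
  have pF : PM F := fun y hy hF => pG hy (by
    rw [← e1, ContinuousMap.comp_apply, mem_singleton_iff.1 hF, sq_zero]; rfl)
  obtain ⟨q, hq⟩ := pF.exists
  have h6 := Dg.comp (sq_deg hr').2 pF hq
  rw [e1] at h6
  have h7 := h6.unique (dG 1 (sq_deg hr).2)
  rw [one_mul, mul_one] at h7
  have h8 := Dg.comp hv pF hq
  rw [h7, dg_pull] at h8
  rw [dg_pull]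
  convert h8 using 1
  ext y
  change a (e.symm (c + sq r y)) = a' (e'.symm (c' + ((sq r').comp F) y))
  rw [e1, (h4 y).1.2]
  change _ = a' (e'.symm (c' + (h (c + sq r y) - h c)))
  rw [hc, add_sub_cancel]

theorem val_of_dg (hr : 0 < r) (hb : ball c r ⊆ e.target) (hv : Dg (cell e c r hr hb) φ t) :
    Val e c φ t := by
  have := transfer (e := e) (ContinuousMap.id M) (ContinuousMap.id M) (χ := φ) hr hb hv (h := id) rfl
    (hasFDerivAt_id c) (by simp [ContinuousLinearMap.det])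
    (Eventually.of_forall fun z => ⟨continuousAt_id, rfl⟩)
  rw [show (ContinuousLinearMap.id ℝ (EE (d + 1))).det = 1 by simp [ContinuousLinearMap.det],
    sg_pos one_pos, mul_one] at this
  exact this

theorem Val.dg (a : Val e (e x) φ t) (hx : x ∈ e.source) (ha : At x φ) (hr : 0 < r)
    (hb : ball (e x) r ⊆ e.target) : Dg (cell e (e x) r hr hb) φ t := by
  obtain ⟨s, hs⟩ := exists_dg (cell_maps hr hb hx) ha
  rwa [← (val_of_dg hr hb hs).unique a hx]

/-- the derivative of a map read in charts gives the ratio of the values -/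
theorem Val.pull (g : C(M, M')) {χ : Co ℚ (d + 1) M'} (hx : x ∈ e.source) (hx' : g x ∈ e'.source)
    (a : Val e' (e' (g x)) χ t) {D : EE (d + 1) →L[ℝ] EE (d + 1)}
    (hD : HasFDerivAt (e' ∘ g ∘ e.symm) D (e x)) (h0 : D.det ≠ 0) :
    Val e (e x) (pull ℚ g χ) (t * sg D.det) := by
  obtain ⟨r, hr, hb, hv⟩ := a.exists hx'
  refine transfer g (ContinuousMap.id M') (χ := χ) hr hb hv (by simp [e.left_inv hx]) hD h0 ?_
  have h1 : ∀ᶠ z in 𝓝 (e x), z ∈ e.target := e.open_target.mem_nhds (e.map_source hx)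
  have h2 : ∀ᶠ z in 𝓝 (e x), g (e.symm z) ∈ e'.source :=
    (g.continuous.continuousAt.comp (e.continuousAt_symm (e.map_source hx))).eventually_mem
      (by simpa [e.left_inv hx] using e'.open_source.mem_nhds hx')
  filter_upwards [h1, h2] with z a b
  exact ⟨ContinuousAt.comp (f := g ∘ e.symm) (e'.continuousAt b)
    (g.continuous.continuousAt.comp (e.continuousAt_symm a)), (e'.left_inv b).symm⟩

variable [ChartedSpace (EE (d + 1)) M]

variable (d) in
/-- an orientation, given by its signs in the preferred charts -/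
structure OrF (ρ : M → ℝ) : Prop where
  ne : ∀ x, ρ x ≠ 0
  loc : ∀ x, ∀ᶠ y in 𝓝 x, ∃ D : EE (d + 1) →L[ℝ] EE (d + 1),
    HasFDerivAt (chartAt (EE (d + 1)) y ∘ (chartAt (EE (d + 1)) x).symm) D
      (chartAt (EE (d + 1)) x y) ∧ 0 < D.det * ρ y * ρ x

/-- positive generator at a point -/
def Pos (ρ : M → ℝ) (x : M) (φ : Co ℚ (d + 1) M) : Prop :=
  At x φ ∧ Val (chartAt (EE (d + 1)) x) (chartAt (EE (d + 1)) x x) φ (sg (ρ x))

variable {A : M → ℝ}

theorem sg_sq (a : ℝ) : sg a * sg a = 1 := by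
  unfold sg; split_ifs <;> norm_num

theorem sg_ne (a : ℝ) : sg a ≠ 0 := fun h => by
  have := sg_sq a
  rw [h, mul_zero] at this
  exact zero_ne_one this

theorem sg_of_pos {a b c : ℝ} (h : 0 < a * b * c) : sg b * sg a = sg c := by
  have hc : c ≠ 0 := right_ne_zero_of_mul h.ne'
  have hab : a * b ≠ 0 := left_ne_zero_of_mul h.ne'
  have h1 := sg_pos h
  rw [sg_mul hab hc, sg_mul (left_ne_zero_of_mul hab) (right_ne_zero_of_mul hab)] at h1
  linear_combination (sg c) * h1 - (sg a * sg b) * sg_sq c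

theorem pos_val (hA : OrF d A) (x : M) : ∀ᶠ y in 𝓝 x, ∀ φ, Pos A y φ →
    Val (chartAt (EE (d + 1)) x) (chartAt (EE (d + 1)) x y) φ (sg (A x)) := by
  filter_upwards [hA.loc x, chart_source_mem_nhds (EE (d + 1)) x] with y ⟨D, hD, hp⟩ hy φ hφ
  have := Val.pull (e := chartAt _ x) (e' := chartAt _ y) (ContinuousMap.id M) hy
    (mem_chart_source _ y) hφ.2 hD (left_ne_zero_of_mul (left_ne_zero_of_mul hp.ne'))
  rwa [sg_of_pos hp] at this

variable [T2Space M]

theorem exists_pos (A : M → ℝ) (x : M) : ∃ φ : Co ℚ (d + 1) M, Pos A x φ := by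
  have hx := mem_chart_source (EE (d + 1)) x
  obtain ⟨r, hr, hb, -⟩ := exists_rad hx one_pos
  obtain ⟨φ, h1, h2⟩ := exists_at (isOpenEmbedding_cell hr hb) isClosed_singleton
  rw [cell_zero hr hb hx] at h1
  have := (val_of_dg hr hb h2).smul (sg (A x))
  rw [mul_one] at this
  exact ⟨_, h1.smul _, this⟩

theorem Pos.span (a : Pos A x φ) (b : At x ψ) : ∃ t : ℚ, ψ - t • φ ∈ Exa ℚ ℚ {x} (d + 1) := by
  obtain ⟨h0, hv⟩ := a
  have hx := mem_chart_source (EE (d + 1)) x
  obtain ⟨r, hr, hb, h1⟩ := hv.exists hx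
  obtain ⟨t, ht⟩ := exists_dg (cell_maps hr hb hx) b
  have h2 := ht.sub (h1.smul (t * sg (A x)))
  rw [mul_assoc, sg_sq, mul_one, sub_self] at h2
  have := h2.exa (isOpenEmbedding_cell hr hb) (by rw [cell_zero hr hb hx]; exact b.sub (h0.smul _))
  rw [cell_zero hr hb hx] at this
  exact ⟨_, this⟩

/-- coboundaries of cochains with compact support in `U` -/
def Bc (U : Set M) (d : ℕ) : Submodule ℚ (Co ℚ (d + 1) M) := (Cc ℚ U ℚ d).map (cob ℚ)

omit [T2Space M] [ChartedSpace (EE (d + 1)) M] in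
theorem exa_le_Bc {K U : Set M} (hK : IsCompact K) (h : K ⊆ U) : Exa ℚ ℚ K (d + 1) ≤ Bc U d :=
  Submodule.map_mono fun _ hφ => ⟨K, hK, h, hφ⟩

theorem pos_near (hA : OrF d A) {U : Set M} (hU : U ∈ 𝓝 x) :
    ∀ᶠ y in 𝓝 x, ∀ φ ψ : Co ℚ (d + 1) M, Pos A x φ → Pos A y ψ → φ - ψ ∈ Bc U d := by
  have hv := pos_val hA x
  have hx := mem_chart_source (EE (d + 1)) x
  have hx' : ∀ φ : Co ℚ (d + 1) M, Pos A x φ → _ := fun _ h => h.2
  generalize chartAt (EE (d + 1)) x = e at hv hx hx'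
  have h1 : e.target ∩ e.symm ⁻¹' U ∈ 𝓝 (e x) := inter_mem (e.open_target.mem_nhds (e.map_source hx))
    ((e.continuousAt_symm (e.map_source hx)).preimage_mem_nhds (by rwa [e.left_inv hx]))
  obtain ⟨ρ, hρ, h2⟩ := Metric.mem_nhds_iff.1 h1
  set r := ρ / 2
  have hr : 0 < r := by positivity
  have h3 : ∀ᶠ y in 𝓝 x, e y ∈ ball (e x) r := (e.continuousAt hx).eventually_mem (ball_mem_nhds _ hr)
  filter_upwards [h3, e.open_source.mem_nhds hx, hv] with y hy hys hv φ ψ hφ hψ
  have hn : ‖e y - e x‖ < r := by rwa [← dist_eq_norm]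
  have hb : ∀ t : ℝ, 0 ≤ t → t ≤ 1 → ball (e x + t • (e y - e x)) r ⊆ ball (e x) ρ := by
    intro t h0 ht
    refine ball_subset_ball' ?_
    rw [dist_eq_norm, add_sub_cancel_left, norm_smul, Real.norm_of_nonneg h0]
    have := mul_le_of_le_one_left (norm_nonneg (e y - e x)) ht
    simp only [r] at hn ⊢
    linarith
  have hbx : ball (e x) r ⊆ e.target := by
    simpa using (hb 0 le_rfl zero_le_one).trans (h2.trans inter_subset_left)
  have hby : ball (e y) r ⊆ e.target := by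
    simpa using (hb 1 zero_le_one le_rfl).trans (h2.trans inter_subset_left)
  have hm : ∀ (z : EE (d + 1)) (t : unitInterval),
      e x + (t : ℝ) • (e y - e x) + sq r z ∈ e.target := fun z t =>
    (h2 (hb t t.2.1 t.2.2 (add_sq_mem hr _ z))).1
  let H : C(EE (d + 1) × unitInterval, M) :=
    ⟨fun p => e.symm (e x + (p.2 : ℝ) • (e y - e x) + sq r p.1),
      e.continuousOn_symm.comp_continuous (by fun_prop) fun p => hm p.1 p.2⟩
  obtain ⟨R, hR, hK⟩ := ((isCompact_closedBall (0 : EE (d + 1)) ‖e y - e x‖).image_of_continuousOn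
    ((continuousOn_us r).mono (closedBall_subset_ball hn))).isBounded.subset_closedBall_lt 0 0
  have hH : ∀ z ∈ (closedBall (0 : EE (d + 1)) R)ᶜ, ∀ t, H (z, t) ∈ ({y} : Set M)ᶜ := by
    intro z hz t h
    refine hz (hK ⟨sq r z, ?_, us_sq r z⟩)
    have h4 : e x + (t : ℝ) • (e y - e x) + sq r z = e y := by
      rw [← e.right_inv (hm z t)]
      exact congrArg e (mem_singleton_iff.1 h)
    have h5 : sq r z = (1 - (t : ℝ)) • (e y - e x) := by
      rw [eq_sub_of_add_eq' h4]; module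
    rw [mem_closedBall_zero_iff, h5, norm_smul, Real.norm_of_nonneg (sub_nonneg.2 t.2.2)]
    exact mul_le_of_le_one_left (norm_nonneg _) (sub_le_self _ t.2.1)
  have e0 : end0 H = cell e (e x) r hr hbx := by
    ext z; simp [H, cell_apply]
  have e1 : end1 H = cell e (e y) r hr hby := by
    ext z; simp [H, cell_apply]
  have h6 := exa_homot H hH hψ.1.1 hψ.1.2
  rw [e0, e1] at h6
  have hz : ({0} : Set (EE (d + 1))) ⊆ closedBall 0 R := by simp [hR.le]
  have h7 := exa_mono hz ((hx' φ hφ).dg hx hφ.1 hr hbx)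
  have h8 := exa_mono hz ((hv ψ hψ).dg hys hψ.1 hr hby)
  have hj := isOpenEmbedding_cell hr hbx
  have hc := (isCompact_closedBall (0 : EE (d + 1)) R).image hj.continuous
  refine exa_le_Bc hc ?_ (exa_of_pull smVanS_holds hj hc.isClosed
    (by rw [map_sub, hφ.1.1, hψ.1.1, sub_zero]) (Submodule.sub_mem _ (van_supp ?_ hφ.1.2)
      (van_supp ?_ hψ.1.2)) ?_)
  · rintro _ ⟨z, -, rfl⟩
    exact (h2 (ball_subset_ball (by simp only [r]; linarith) (add_sq_mem hr _ z))).2
  · rintro _ rfl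
    exact ⟨0, hz rfl, cell_zero hr hbx hx⟩
  · intro y' hy'
    rw [mem_singleton_iff.1 hy']
    have h9 : cell e (e x) r hr hbx (us r (e y - e x)) = y := by
      rw [cell_apply, sq_us hr hn, add_sub_cancel, e.left_inv hys]
    refine ⟨_, ?_, h9⟩
    by_contra hz'
    refine hH _ hz' 0 ?_
    rw [← end0_apply, e0]
    exact h9
  · have := Submodule.add_mem _ (Submodule.sub_mem _ h7 h8) h6
    rw [map_sub]
    convert this using 1
    abel

theorem pos_conn (hA : OrF d A) {U : Set M} (hU : IsOpen U) (hc : IsPreconnected U) (hx : x ∈ U)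
    (hy : y ∈ U) (a : Pos A x φ) (b : Pos A y ψ) : φ - ψ ∈ Bc U d := by
  refine hc.induction₂' (fun x y => ∀ φ ψ : Co ℚ (d + 1) M, Pos A x φ → Pos A y ψ → φ - ψ ∈ Bc U d)
    (fun x hx => ?_) ?_ hx hy φ ψ a b
  · refine mem_nhdsWithin_of_mem_nhds ?_
    filter_upwards [pos_near hA (hU.mem_nhds hx)] with y h
    refine ⟨h, fun φ ψ a b => ?_⟩
    rw [← neg_sub]
    exact Submodule.neg_mem _ (h ψ φ b a)
  · intro x y z _ _ _ h1 h2 φ ψ a b
    obtain ⟨χ, hχ⟩ := exists_pos (d := d) A y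
    have := Submodule.add_mem _ (h1 φ χ a hχ) (h2 χ ψ hχ b)
    rwa [sub_add_sub_cancel] at this

end Crest.Agent.X212.Ori83

end
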